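import Vale.Agent.P284.H221.Rk
import Mathlib.Analysis.Calculus.InverseFunctionTheorem.Analytic
import Mathlib.Topology.Algebra.Module.Determinant

/-!
# P284 (helper221): holomorphic inverse functions
-/

open scoped Manifold ContDiff Topology
open Filter Set

noncomputable section

namespace Vale.Agent.P284.H221

open Vale.Agent.P272.K

variable {R : ℕ}

/-- `α` analytic at `a` with bijective derivative, `β` analytic at `ζ`, `β ζ = α a`:
`β = α ∘ f` near `ζ` with `f` analytic, `f ζ = a` -/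
theorem exists_branch {α β : Cm R → Cm R} {a ζ : Cm R} (hα : AnalyticAt ℂ α a)
    (hb : Function.Bijective (fderiv ℂ α a)) (hβ : AnalyticAt ℂ β ζ) (h : β ζ = α a) :
    ∃ f : Cm R → Cm R, AnalyticAt ℂ f ζ ∧ f ζ = a ∧ ∀ᶠ z in 𝓝 ζ, α (f z) = β z := by
  let i : Cm R ≃L[ℂ] Cm R := ContinuousLinearEquiv.ofBijective (fderiv ℂ α a)
    (LinearMap.ker_eq_bot.2 hb.1) (LinearMap.range_eq_top.2 hb.2)
  have hi : (i : Cm R →L[ℂ] Cm R) = fderiv ℂ α a := by
    ext x
    rfl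
  have hs : HasStrictFDerivAt α (i : Cm R →L[ℂ] Cm R) a := by
    rw [hi]; exact hα.hasStrictFDerivAt
  let F := hs.toOpenPartialHomeomorph α
  have ha : a ∈ F.source := hs.mem_toOpenPartialHomeomorph_source
  have hF : ∀ x, F x = α x := fun x => rfl
  have hinv : AnalyticAt ℂ F.symm (F a) :=
    OpenPartialHomeomorph.analyticAt_symm' F ha hα hi.symm
  refine ⟨fun z => F.symm (β z), ?_, ?_, ?_⟩
  · refine AnalyticAt.comp (g := F.symm) ?_ hβ
    rw [h]
    exact hinv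
  · show F.symm (β ζ) = a
    rw [h]
    exact F.left_inv ha
  · have h1 : ∀ᶠ z in 𝓝 ζ, β z ∈ F.target := by
      have := hβ.continuousAt
      refine this.eventually (F.open_target.mem_nhds ?_)
      rw [h]
      exact F.map_source ha
    filter_upwards [h1] with z hz
    exact F.right_inv hz

/-- `β` analytic at `ζ` with bijective derivative is open at `ζ` -/
theorem image_mem_nhds {β : Cm R → Cm R} {ζ : Cm R} (hβ : AnalyticAt ℂ β ζ)
    (hb : Function.Bijective (fderiv ℂ β ζ)) {U : Set (Cm R)} (hU : U ∈ 𝓝 ζ) :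
    β '' U ∈ 𝓝 (β ζ) := by
  let i : Cm R ≃L[ℂ] Cm R := ContinuousLinearEquiv.ofBijective (fderiv ℂ β ζ)
    (LinearMap.ker_eq_bot.2 hb.1) (LinearMap.range_eq_top.2 hb.2)
  have hi : (i : Cm R →L[ℂ] Cm R) = fderiv ℂ β ζ := by
    ext x
    rfl
  have hs : HasStrictFDerivAt β (i : Cm R →L[ℂ] Cm R) ζ := by
    rw [hi]; exact hβ.hasStrictFDerivAt
  have := hs.map_nhds_eq_of_equiv
  rw [← this]
  exact image_mem_map hU

lemma det_clm_eq (L : Cm R →L[ℂ] Cm R) :
    (Matrix.of fun i j : Fin R => L (Pi.single j 1) i).det = L.det :=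
  det_of_eq (L := (L : Cm R →ₗ[ℂ] Cm R))

lemma det_ne_zero_of_bijective {L : Cm R →L[ℂ] Cm R} (h : Function.Bijective L) : L.det ≠ 0 := by
  have h1 : IsUnit (LinearMap.det (L : Cm R →ₗ[ℂ] Cm R)) :=
    LinearEquiv.isUnit_det' (LinearEquiv.ofBijective (L : Cm R →ₗ[ℂ] Cm R) h)
  exact h1.ne_zero

lemma bijective_of_det_ne_zero {L : Cm R →L[ℂ] Cm R} (h : L.det ≠ 0) : Function.Bijective L := by
  have h1 : IsUnit (LinearMap.det (L : Cm R →ₗ[ℂ] Cm R)) := isUnit_iff_ne_zero.2 h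
  have h2 := (LinearEquiv.ofIsUnitDet (f := (L : Cm R →ₗ[ℂ] Cm R))
      (v := Pi.basisFun ℂ (Fin R)) (v' := Pi.basisFun ℂ (Fin R))
      (by rw [LinearMap.det_toMatrix]; exact h1)).bijective
  exact h2

/-- determinant of the chain rule `α ∘ f = β` -/
lemma det_chain {α β f : Cm R → Cm R} {z : Cm R} (hf : DifferentiableAt ℂ f z)
    (hα : DifferentiableAt ℂ α (f z)) (h : ∀ᶠ z' in 𝓝 z, α (f z') = β z') :
    (fderiv ℂ α (f z)).det * (fderiv ℂ f z).det = (fderiv ℂ β z).det := by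
  have h1 : fderiv ℂ β z = (fderiv ℂ α (f z)).comp (fderiv ℂ f z) := by
    have h2 : (fun z' => α (f z')) =ᶠ[𝓝 z] β := h
    rw [← h2.fderiv_eq]
    exact fderiv_comp z hα hf
  rw [h1]
  exact (LinearMap.det_comp (fderiv ℂ α (f z) : Cm R →ₗ[ℂ] Cm R)
    (fderiv ℂ f z : Cm R →ₗ[ℂ] Cm R)).symm

end Vale.Agent.P284.H221
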