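import Vale.Agent.P284.H573.HForm
import Vale.Agent.P284.H221.Inv
import Mathlib.Analysis.Normed.Module.FiniteDimension

/-!
# P284 (helper221): good points of a Hilbert space valued form are open
-/

open scoped Manifold ContDiff Topology
open Filter Set

noncomputable section

namespace Vale.Agent.P284.H221

open Vale.Agent.P272.K Vale.Agent.P284.H573

section imm

variable {R : ℕ} {H : Type} [NormedAddCommGroup H] [InnerProductSpace ℂ H]

/-- `γ, ∂₁γ, …, ∂_Rγ` -/
def jet1 (γ : Cm R → H) (b : Cm R) : Option (Fin R) → H :=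
  fun o => o.elim (γ b) fun i => fderiv ℂ γ b (Pi.single i 1)

lemma immAt_iff {γ : Cm R → H} {b : Cm R} : ImmAt γ b ↔ LinearIndependent ℂ (jet1 γ b) := by
  rw [Fintype.linearIndependent_iff]
  constructor
  · rintro ⟨h0, h1⟩ g hg
    rw [Fintype.sum_option] at hg
    have h2 : fderiv ℂ γ b (fun i => g (some i)) = (-g none) • γ b := by
      have h3 : (fun i => g (some i)) = ∑ i, g (some i) • (Pi.single i (1 : ℂ) : Cm R) := by
        funext j
        simp [Finset.sum_apply, Pi.single_apply]
      rw [h3, map_sum]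
      simp only [map_smul]
      rw [neg_smul, eq_neg_iff_add_eq_zero, add_comm]
      exact hg
    have h4 := h1 _ _ h2
    have h5 : ∀ i, g (some i) = 0 := fun i => congrFun h4 i
    intro o
    cases o with
    | some i => exact h5 i
    | none =>
      rw [h4, map_zero] at h2
      rcases smul_eq_zero.1 h2.symm with h6 | h6
      · exact neg_eq_zero.1 h6
      · exact absurd h6 h0
  · intro h
    refine ⟨fun h0 => ?_, fun η c hc => ?_⟩
    · have h1 := h (fun o => o.elim 1 fun _ => 0) (by
        rw [Fintype.sum_option]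
        simp [jet1, h0]) none
      exact one_ne_zero h1
    · have h1 := h (fun o => o.elim (-c) fun i => η i) (by
        rw [Fintype.sum_option]
        have h3 : η = ∑ i, η i • (Pi.single i (1 : ℂ) : Cm R) := by
          funext j
          simp [Finset.sum_apply, Pi.single_apply]
        have h4 : fderiv ℂ γ b η = ∑ i, η i • fderiv ℂ γ b (Pi.single i 1) := by
          conv_lhs => rw [h3]
          rw [map_sum]
          simp only [map_smul]
        show (-c) • γ b + ∑ i, η i • fderiv ℂ γ b (Pi.single i 1) = 0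
        rw [← h4, hc, neg_smul, neg_add_cancel])
      funext i
      exact h1 (some i)

lemma immAt_eventually [CompleteSpace H] {γ : Cm R → H} {b : Cm R} (hγ : AnalyticAt ℂ γ b)
    (h : ImmAt γ b) : ∀ᶠ b' in 𝓝 b, ImmAt γ b' := by
  rw [immAt_iff] at h
  have h1 : ContinuousAt (jet1 γ) b := by
    refine tendsto_pi_nhds.2 fun o => ?_
    cases o with
    | none => exact hγ.continuousAt
    | some i =>
      have h2 : ContDiffAt ℂ 1 γ b := hγ.contDiffAt
      have h3 : ContinuousAt (fderiv ℂ γ) b := (h2.fderiv_right (m := 0) (by simp)).continuousAt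
      exact (h3.clm_apply continuousAt_const)
  have h2 : IsOpen {f : Option (Fin R) → H | LinearIndependent ℂ f} :=
    isOpen_setOfPred_linearIndependent
  filter_upwards [h1.eventually (h2.mem_nhds h)] with b' hb'
  exact immAt_iff.2 hb'

end imm

section nf

variable {n R m : ℕ} {X E : Type} [TopologicalSpace X] [ChartedSpace (Cm n) X]
  [TopologicalSpace E] {p : E → X} {H : Type} [NormedAddCommGroup H] [InnerProductSpace ℂ H]
  {v : E → Chart n X → (Fin R → Cm n) → H} {y₀ : E} {e : Chart n X} {b : Cm n → Cm R}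
  {γ : Cm R → H}

lemma tendsto_chart (hp : Continuous p) (h : At e (p y₀)) :
    Tendsto (fun y => e (p y)) (𝓝 y₀) (𝓝 (e (p y₀))) :=
  (ContinuousAt.comp (g := e) (f := p) (e.continuousAt h.2) hp.continuousAt).tendsto

lemma surj_eventually {N n : ℕ} {g : Cm N → Cm n} {a : Cm N} (hg : AnalyticAt ℂ g a)
    (h : Function.Surjective (fderiv ℂ g a)) :
    ∀ᶠ z in 𝓝 a, Function.Surjective (fderiv ℂ g z) := by
  obtain ⟨ι, hι⟩ := exists_mnr h
  filter_upwards [(mnr_analytic hg ι).continuousAt.eventually_ne hι] with z hz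
  exact surjective_of_mnr hz

/-- good points are open -/
theorem nf_eventually [CompleteSpace H] (hp : Continuous p) (h : IsNF m p v y₀ e b γ) :
    ∀ᶠ y in 𝓝 y₀, IsNF m p v y e b γ := by
  have h1 := tendsto_chart hp h.mem
  have h2 : Tendsto (fun y => b (e (p y))) (𝓝 y₀) (𝓝 (b (e (p y₀)))) :=
    h.ban.continuousAt.tendsto.comp h1
  filter_upwards [hp.continuousAt.eventually (e.open_source.mem_nhds h.mem.2),
    h1.eventually h.ban.eventually_analyticAt, h1.eventually (surj_eventually h.ban h.bsurj),
    h2.eventually h.γan.eventually_analyticAt, h2.eventually (immAt_eventually h.γan h.imm),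
    eventually_eventually_nhds.2 h.nf] with y a1 a2 a3 a4 a5 a6
  exact ⟨⟨h.mem.1, a1⟩, a2, a3, a4, a5, a6⟩

end nf

end Vale.Agent.P284.H221
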