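import Vale.Agent.P284.H573.HForm
import Vale.Agent.P284.H553.SegS
import Vale.Agent.P284.H998.ZS
import Vale.Agent.P284.H221.Good
import Mathlib.Topology.Covering.Basic

/-!
# P284 (helper221), module SIG: statement

A projective manifold with a Hilbert space valued natural form of full rank on a covering is not
dominated by `ℂᴺ`.
-/

open scoped Manifold ContDiff Topology ComplexOrder
open Filter

noncomputable section

namespace Vale.Agent.P284.H221

open Vale.Agent.P272.K Vale.Agent.P284.H573 Vale.Agent.P284.H553 Vale.Agent.P284.H998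
  Vale.Agent.P284.H812

/-- `X` is dominated by `ℂᴺ`: over every nonempty open set there is a point of rank `n` of some
holomorphic map `ℂᴺ → X`. -/
def Dom (N n : ℕ) (X : Type) [TopologicalSpace X] [ChartedSpace (Cm n) X] : Prop :=
  ∀ U : Set X, IsOpen U → U.Nonempty → ∃ Φ : Cm N → X,
    ContMDiff 𝓘(ℂ, Cm N) 𝓘(ℂ, Cm n) ω Φ ∧ ∃ ζ, Φ ζ ∈ U ∧ RkAt n Φ ζ

theorem dom_of_dense {N n : ℕ} {X : Type} [TopologicalSpace X] [ChartedSpace (Cm n) X]
    [IsManifold 𝓘(ℂ, Cm n) ω X] {Φ : Cm N → X} (hΦ : ContMDiff 𝓘(ℂ, Cm N) 𝓘(ℂ, Cm n) ω Φ)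
    (h : ∃ ζ, RkAt n Φ ζ) (hd : DenseRange Φ) : Dom N n X := by
  intro U hU hne
  obtain ⟨ζ, h1, h2⟩ := exists_rkAt_over hΦ h hd hU hne
  exact ⟨Φ, hΦ, ζ, h1, h2⟩

/-- **Z**, with homogeneous coordinates of an immersion into a projective space -/
def ZPStmt : Prop :=
  ∀ (n R : ℕ) (_ : 1 ≤ R) (_ : R ≤ n) (X : Type) [TopologicalSpace X] [T2Space X] [CompactSpace X]
    [ChartedSpace (Cm n) X] [IsManifold 𝓘(ℂ, Cm n) ω X]
    (ι : Type) [Fintype ι] (_ : PJ n X ι)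
    (e : Chart n X) (x₀ : X) (_ : At e x₀) (W : Set X) (_ : W ∈ 𝓝 x₀)
    (f : Cm n → Cm R) (_ : AnalyticAt ℂ f (e x₀))
    (_ : Function.Surjective (fderiv ℂ f (e x₀))),
    ∃ (Z : Type) (_ : TopologicalSpace Z) (_ : T2Space Z) (_ : CompactSpace Z)
      (_ : ConnectedSpace Z) (_ : ChartedSpace (Cm R) Z) (_ : IsManifold 𝓘(ℂ, Cm R) ω Z)
      (j : Z → X) (_ : ContMDiff 𝓘(ℂ, Cm R) 𝓘(ℂ, Cm n) ω j)
      (w : Chart R Z → Cm R → ℝ) (_ : IsCanonicalMetric w)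
      (_ : ∀ c z, At c z → (cHess (w c) (c z)).PosDef)
      (z₁ : Z) (c : Chart R Z), At c z₁ ∧ j z₁ ∈ W ∧ At e (j z₁) ∧
        AnalyticAt ℂ (fun y => f (e (j (c.symm y)))) (c z₁) ∧
        Function.Bijective (fderiv ℂ (fun y => f (e (j (c.symm y)))) (c z₁))

/-- **L1**: pull-back of a form along a map `ψ` from `ℂᴿ` -/
def L1Stmt : Prop :=
  ∀ (n R m : ℕ) (X E : Type) [TopologicalSpace X] [ChartedSpace (Cm n) X]
    [IsManifold 𝓘(ℂ, Cm n) ω X] [TopologicalSpace E] (p : E → X) (_ : Continuous p)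
    (H : Type) [NormedAddCommGroup H] [InnerProductSpace ℂ H] [CompleteSpace H]
    (v : E → Chart n X → (Fin R → Cm n) → H) (_ : HForm n R m p H v)
    (ψ : Cm R → E) (_ : Continuous ψ)
    (_ : ∀ (z : Cm R) (e : Chart n X), At e (p (ψ z)) → AnalyticAt ℂ (fun z' => e (p (ψ z'))) z),
    ∃ V : Cm R → H, Differentiable ℂ V ∧ ∀ (z : Cm R) (e : Chart n X), At e (p (ψ z)) →
      V z = v (ψ z) e (fun i => fderiv ℂ (fun z' => e (p (ψ z'))) z (Pi.single i 1))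

/-- **L2**: the weight on a manifold `Z` mapped to `X` -/
def L2Stmt : Prop :=
  ∀ (n R m : ℕ) (X E : Type) [TopologicalSpace X] [ChartedSpace (Cm n) X]
    [IsManifold 𝓘(ℂ, Cm n) ω X] [TopologicalSpace E] (p : E → X) (_ : IsCoveringMap p)
    (_ : Function.Surjective p)
    (H : Type) [NormedAddCommGroup H] [InnerProductSpace ℂ H] [CompleteSpace H]
    (v : E → Chart n X → (Fin R → Cm n) → H) (_ : HForm n R m p H v)
    (Z : Type) [TopologicalSpace Z] [ChartedSpace (Cm R) Z] [IsManifold 𝓘(ℂ, Cm R) ω Z]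
    (j : Z → X) (_ : ContMDiff 𝓘(ℂ, Cm R) 𝓘(ℂ, Cm n) ω j),
    ∃ N : Chart R Z → Cm R → ℝ, HMet R m Z H N ∧
      ∀ (c : Chart R Z) (z : Z) (e : Chart n X) (y : E), At c z → At e (j z) → p y = j z → N c (c z) =
        ‖v y e (fun i => fderiv ℂ (fun z' => e (j (c.symm z'))) (c z) (Pi.single i 1))‖ ^ 2

/-- **SIG** -/
def SigStmt : Prop :=
  ∀ (n N R m : ℕ) (_ : 1 ≤ R) (_ : 1 ≤ m) (X : Type) [TopologicalSpace X] [T2Space X]
    [CompactSpace X] [ChartedSpace (Cm n) X] [IsManifold 𝓘(ℂ, Cm n) ω X]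
    (ι : Type) [Fintype ι] (_ : PJ n X ι) (_ : Dom N n X)
    (E : Type) [TopologicalSpace E] (p : E → X) (_ : IsCoveringMap p) (_ : Function.Surjective p)
    (H : Type) [NormedAddCommGroup H] [InnerProductSpace ℂ H] [CompleteSpace H]
    (v : E → Chart n X → (Fin R → Cm n) → H) (_ : HForm n R m p H v)
    (_ : ∃ y₀, GoodAt p R m v y₀), False

end Vale.Agent.P284.H221
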