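import Vale.Agent.P284.H221.Inv
import Vale.Agent.P284.H885.Quo
import Vale.Agent.P284.H894.W.Spec2
import Vale.Agent.P284.H213.Grp.Basic
import Vale.Agent.P268.Hol
import Mathlib.Analysis.Complex.AbsMax

/-!
# P284 (helper221), piece (C7) of [C]: maximum principle on the fibres `{F = t}`

`φ` is a function on the regular, connected fibre `Y` of `F : E → ℂ^q`, holomorphic along `Y` with values
in a Hilbert space, the norm of `φ` is invariant under a group `K'` with compact quotient of `Y`; then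
`φ` is constant on `Y`. Version for functions which are locally the real part of a holomorphic function.
-/

open scoped Manifold ContDiff Topology
open Filter Set Metric

noncomputable section

namespace Vale.Agent.P284.H221

open Vale.Agent.P272.K Vale.Agent.P284.H894.G Vale.Agent.P284.H894.W

/-! ### the local maximum principle on `{f = const}` -/

section loc
variable {S T : Type*} [NormedAddCommGroup S] [NormedSpace ℂ S] [FiniteDimensional ℂ S]
  [NormedAddCommGroup T] [NormedSpace ℂ T] [FiniteDimensional ℂ T]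

/-- holomorphic parametrisation of a regular fibre -/
theorem fib_param {f : S → T} {z0 : S} (hf : AnalyticAt ℂ f z0)
    (hs : Function.Surjective (fderiv ℂ f z0)) :
    ∃ (N : Submodule ℂ S) (s : N → S), AnalyticAt ℂ s 0 ∧ s 0 = z0 ∧
      (∀ᶠ x in 𝓝 0, f (s x) = f z0) ∧
      ∀ U ∈ 𝓝 (0 : N), ∀ᶠ z in 𝓝 z0, f z = f z0 → ∃ x ∈ U, s x = z := by
  classical
  have : CompleteSpace S := FiniteDimensional.complete ℂ S
  have : CompleteSpace T := FiniteDimensional.complete ℂ T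
  set L : S →L[ℂ] T := fderiv ℂ f z0 with hL
  let N : Submodule ℂ S := LinearMap.ker (L : S →ₗ[ℂ] T)
  obtain ⟨P, hP⟩ : ∃ P : S →L[ℂ] N, ∀ x : N, P x = x :=
    Submodule.ClosedComplemented.of_finiteDimensional_quotient (Submodule.closed_of_finiteDimensional N)
  have hbij : Function.Bijective (L.prod P) := by
    constructor
    · rw [injective_iff_map_eq_zero]
      intro v hv
      have h1 : L v = 0 := congrArg Prod.fst hv
      have h2 : P v = 0 := congrArg Prod.snd hv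
      have h3 : v ∈ N := h1
      have h4 : P v = ⟨v, h3⟩ := hP ⟨v, h3⟩
      rw [h4] at h2
      exact congrArg Subtype.val h2
    · rintro ⟨a, b⟩
      obtain ⟨v, hv⟩ := hs a
      refine ⟨v - P v + b, Prod.ext ?_ ?_⟩
      · show L (v - P v + b) = a
        have h5 : L (P v : S) = 0 := (P v).2
        have h6 : L (b : S) = 0 := b.2
        rw [map_add, map_sub, h5, h6, sub_zero, add_zero]
        exact hv
      · show P (v - P v + b) = b
        rw [map_add, map_sub, hP, hP, sub_self, zero_add]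
  let i : S ≃L[ℂ] (T × N) := ContinuousLinearEquiv.ofBijective (L.prod P)
    (LinearMap.ker_eq_bot.2 hbij.1) (LinearMap.range_eq_top.2 hbij.2)
  let G : S → T × N := fun z => (f z, P (z - z0))
  have hGan : AnalyticAt ℂ G z0 :=
    hf.prod ((P.analyticAt _).comp (analyticAt_id.sub analyticAt_const))
  have hGd : HasStrictFDerivAt G (i : S →L[ℂ] (T × N)) z0 := by
    have h1 : HasStrictFDerivAt f L z0 := hf.hasStrictFDerivAt
    have h2 : HasStrictFDerivAt (fun z => P (z - z0)) P z0 := by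
      have h3 : HasStrictFDerivAt (fun z : S => z - z0) (ContinuousLinearMap.id ℂ S) z0 :=
        (hasStrictFDerivAt_id z0).sub_const z0
      have h4 : HasStrictFDerivAt P P (z0 - z0) := P.hasStrictFDerivAt
      exact HasStrictFDerivAt.comp (g := P) (f := fun z : S => z - z0) z0 h4 h3
    exact h1.prodMk h2
  let F := hGd.toOpenPartialHomeomorph G
  have ha : z0 ∈ F.source := hGd.mem_toOpenPartialHomeomorph_source
  have hFG : ∀ x, F x = G x := fun x => rfl
  have hG0 : G z0 = (f z0, 0) := by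
    show (f z0, P (z0 - z0)) = _
    rw [sub_self, map_zero]
  have hinv : AnalyticAt ℂ F.symm (f z0, (0 : N)) := by
    have := OpenPartialHomeomorph.analyticAt_symm' F ha hGan (hGd.hasFDerivAt.fderiv)
    rw [hFG, hG0] at this
    exact this
  have hpair : AnalyticAt ℂ (fun x : N => ((f z0, x) : T × N)) 0 := analyticAt_const.prod analyticAt_id
  refine ⟨N, fun x => F.symm (f z0, x), hinv.comp hpair, ?_, ?_, ?_⟩
  · show F.symm (f z0, (0 : N)) = z0
    rw [← hG0]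
    exact F.left_inv ha
  · have h1 : ∀ᶠ x : N in 𝓝 0, ((f z0, x) : T × N) ∈ F.target := by
      refine hpair.continuousAt.eventually (F.open_target.mem_nhds ?_)
      show (f z0, (0 : N)) ∈ F.target
      rw [← hG0]
      exact F.map_source ha
    filter_upwards [h1] with x hx
    have h2 : G (F.symm (f z0, x)) = (f z0, x) := F.right_inv hx
    exact congrArg Prod.fst h2
  · intro U hU
    have h1 : ∀ᶠ z in 𝓝 z0, P (z - z0) ∈ U := by
      have h2 : ContinuousAt (fun z => P (z - z0)) z0 := by fun_prop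
      have h3 : U ∈ 𝓝 (P (z0 - z0)) := by rwa [sub_self, map_zero]
      exact h2 h3
    filter_upwards [F.open_source.mem_nhds ha, h1] with z hz1 hz2 hz3
    refine ⟨P (z - z0), hz2, ?_⟩
    have h4 : F.symm (G z) = z := F.left_inv hz1
    rw [← hz3]
    exact h4

/-- **Maximum principle on `{f = f z0}`**, values in a strictly convex space -/
theorem const_of_max {W : Type*} [NormedAddCommGroup W] [NormedSpace ℂ W] [StrictConvexSpace ℝ W]
    {f : S → T} {z0 : S} (hf : AnalyticAt ℂ f z0) (hs : Function.Surjective (fderiv ℂ f z0))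
    {g : S → W} (hg : ∀ᶠ z in 𝓝 z0, DifferentiableAt ℂ g z)
    (hm : ∀ᶠ z in 𝓝 z0, f z = f z0 → ‖g z‖ ≤ ‖g z0‖) :
    ∀ᶠ z in 𝓝 z0, f z = f z0 → g z = g z0 := by
  obtain ⟨N, s, h1, h2, h3, h4⟩ := fib_param hf hs
  have hc : Tendsto s (𝓝 0) (𝓝 z0) := by
    have := h1.continuousAt.tendsto
    rwa [h2] at this
  have h5 : ∀ᶠ x in 𝓝 (0 : N), g (s x) = g (s 0) := by
    refine Complex.eventually_eq_of_isLocalMax_norm (f := fun x => g (s x)) ?_ ?_
    · filter_upwards [h1.eventually_analyticAt, hc.eventually hg] with x hx1 hx2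
      exact hx2.comp x hx1.differentiableAt
    · have h6 := hc.eventually hm
      filter_upwards [h3, h6] with x hx1 hx2
      show ‖g (s x)‖ ≤ ‖g (s 0)‖
      rw [h2]
      exact hx2 hx1
  filter_upwards [h4 _ h5] with z hz hz'
  obtain ⟨x, hx, rfl⟩ := hz hz'
  rw [← h2]
  exact hx

/-- **Maximum principle on `{f = f z0}`** for real parts -/
theorem const_of_max_re {f : S → T} {z0 : S} (hf : AnalyticAt ℂ f z0)
    (hs : Function.Surjective (fderiv ℂ f z0))
    {g : S → ℂ} (hg : ∀ᶠ z in 𝓝 z0, DifferentiableAt ℂ g z)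
    (hm : ∀ᶠ z in 𝓝 z0, f z = f z0 → (g z).re ≤ (g z0).re) :
    ∀ᶠ z in 𝓝 z0, f z = f z0 → (g z).re = (g z0).re := by
  have h1 := const_of_max hf hs (g := fun z => Complex.exp (g z)) (hg.mono fun z hz => hz.cexp)
    (hm.mono fun z hz hz' => by
      rw [Complex.norm_exp, Complex.norm_exp]
      exact Real.exp_le_exp.2 (hz hz'))
  filter_upwards [h1] with z hz hz'
  have h2 := congrArg norm (hz hz')
  rw [Complex.norm_exp, Complex.norm_exp] at h2
  exact Real.exp_injective h2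

end loc

/-! ### transport to `E` -/

section transport
variable {n : ℕ} {X : Type} [TopologicalSpace X] [ChartedSpace (Cm n) X]
  {E : Type} [TopologicalSpace E] {p : E → X}

lemma map_ep' (hp : IsCoveringMap p) {y : E} {e : Chart n X} (he : At e (p y)) :
    map (fun y' => e (p y')) (𝓝 y) = 𝓝 (e (p y)) := by
  have h1 : map p (𝓝 y) = 𝓝 (p y) := hp.isLocalHomeomorph.map_nhds_eq y
  have h2 : map e (𝓝 (p y)) = 𝓝 (e (p y)) := e.map_nhds_eq he.2
  rw [← h2, ← h1, map_map]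
  rfl

/-- an eventual property of `e (p y')` is an eventual property in the chart -/
lemma ev_iff' (hp : IsCoveringMap p) {y : E} {e : Chart n X} (he : At e (p y)) {Q : Cm n → Prop} :
    (∀ᶠ y' in 𝓝 y, Q (e (p y'))) ↔ ∀ᶠ z in 𝓝 (e (p y)), Q z := by
  rw [← map_ep' hp he]
  exact Iff.rfl

/-- local holomorphic expression of `F`, analytic -/
lemma holB_an {w : Chart n X → Cm n → Matrix (Fin n) (Fin n) ℂ} {q : ℕ} {F : E → Cm q} {B : ℝ}
    (hF : HolB p w F B) (y : E) {e : Chart n X} (he : At e (p y)) :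
    ∃ f : Cm n → Cm q, AnalyticAt ℂ f (e (p y)) ∧ ∀ᶠ y' in 𝓝 y, F y' = f (e (p y')) := by
  obtain ⟨f, h1, h2, -⟩ := hF y e he
  obtain ⟨U, hU, hUo, hz⟩ := _root_.eventually_nhds_iff.1 h2
  exact ⟨f, Vale.Agent.P268.analyticAt_of_differentiableOn hUo
    (fun z hz => (hU z hz).differentiableWithinAt) hz, h1⟩

variable (n) in
/-- `F : E → ℂ^q` is analytic in the charts of `X` -/
def HolA (p : E → X) {q : ℕ} (F : E → Cm q) : Prop :=
  ∀ (y : E) (e : Chart n X), At e (p y) → ∃ f : Cm n → Cm q, AnalyticAt ℂ f (e (p y)) ∧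
    ∀ᶠ y' in 𝓝 y, F y' = f (e (p y'))

lemma holA_of {w : Chart n X → Cm n → Matrix (Fin n) (Fin n) ℂ} {q : ℕ} {F : E → Cm q} {B : ℝ}
    (hF : HolB p w F B) : HolA n p F := fun y _ he => holB_an hF y he

lemma holA_cont {q : ℕ} {F : E → Cm q} (hp : IsCoveringMap p) (hF : HolA n p F) :
    Continuous F := by
  rw [continuous_iff_continuousAt]
  intro y
  have he : At (chartAt (Cm n) (p y) : Chart n X) (p y) :=
    ⟨chart_mem_atlas _ _, mem_chart_source _ _⟩
  obtain ⟨f, h1, h2⟩ := hF y _ he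
  have h3 : ContinuousAt (fun y' => f ((chartAt (Cm n) (p y) : Chart n X) (p y'))) y := by
    refine ContinuousAt.comp (g := f) h1.continuousAt ?_
    exact (map_ep' hp he).le
  exact h3.congr (h2.mono fun y' hy' => hy'.symm)

lemma holB_cont {w : Chart n X → Cm n → Matrix (Fin n) (Fin n) ℂ} {q : ℕ} {F : E → Cm q} {B : ℝ}
    (hp : IsCoveringMap p) (hF : HolB p w F B) : Continuous F := by
  rw [continuous_iff_continuousAt]
  intro y
  have he : At (chartAt (Cm n) (p y) : Chart n X) (p y) :=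
    ⟨chart_mem_atlas _ _, mem_chart_source _ _⟩
  obtain ⟨f, h1, h2⟩ := holB_an hF y he
  have h3 : ContinuousAt (fun y' => f ((chartAt (Cm n) (p y) : Chart n X) (p y'))) y := by
    refine ContinuousAt.comp (g := f) h1.continuousAt ?_
    exact (map_ep' hp he).le
  exact h3.congr (h2.mono fun y' hy' => hy'.symm)

variable (n) in
/-- `φ` is holomorphic along the fibre of `F` through `y` -/
def FHol (p : E → X) {q : ℕ} (F : E → Cm q) {W : Type*} [NormedAddCommGroup W] [NormedSpace ℂ W]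
    (φ : E → W) (y : E) : Prop :=
  ∃ e : Chart n X, At e (p y) ∧ ∃ g : Cm n → W, (∀ᶠ z in 𝓝 (e (p y)), DifferentiableAt ℂ g z) ∧
    ∀ᶠ y' in 𝓝 y, F y' = F y → φ y' = g (e (p y'))

variable (n) in
/-- `φ` is the real part of a holomorphic function along the fibre of `F` through `y` -/
def FRe (p : E → X) {q : ℕ} (F : E → Cm q) (φ : E → ℝ) (y : E) : Prop :=
  ∃ e : Chart n X, At e (p y) ∧ ∃ g : Cm n → ℂ, (∀ᶠ z in 𝓝 (e (p y)), DifferentiableAt ℂ g z) ∧
    ∀ᶠ y' in 𝓝 y, F y' = F y → φ y' = (g (e (p y'))).re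

/-- local maximum principle along the fibre -/
theorem FHol.const_of_max' (hp : IsCoveringMap p)
    {q : ℕ} {F : E → Cm q} (hF : HolA n p F) {W : Type*} [NormedAddCommGroup W]
    [NormedSpace ℂ W] [StrictConvexSpace ℝ W] {φ : E → W} {y : E} (hy : Reg (n := n) p F y)
    (hφ : FHol n p F φ y) (hm : ∀ᶠ y' in 𝓝 y, F y' = F y → ‖φ y'‖ ≤ ‖φ y‖) :
    ∀ᶠ y' in 𝓝 y, F y' = F y → φ y' = φ y := by
  obtain ⟨e, he, g, h1, h2⟩ := hφ
  obtain ⟨f, h3, h4⟩ := hF y e he
  have h5 : F y = f (e (p y)) := h4.self_of_nhds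
  have h6 : φ y = g (e (p y)) := h2.self_of_nhds rfl
  have h7 : ∀ᶠ z in 𝓝 (e (p y)), f z = f (e (p y)) → ‖g z‖ ≤ ‖g (e (p y))‖ := by
    rw [← ev_iff' hp he]
    filter_upwards [h2, h4, hm] with y' a1 a2 a3 a4
    have a5 : F y' = F y := by rw [a2, h5, a4]
    rw [← a1 a5, ← h6]
    exact a3 a5
  have h8 := H221.const_of_max h3 (hy e f he h4) h1 h7
  rw [← ev_iff' hp he] at h8
  filter_upwards [h2, h4, h8] with y' a1 a2 a3 a4
  rw [a1 a4, h6]
  refine a3 ?_
  rw [← a2, a4, h5]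

theorem FHol.const_of_max (hp : IsCoveringMap p) {w : Chart n X → Cm n → Matrix (Fin n) (Fin n) ℂ}
    {q : ℕ} {F : E → Cm q} {B : ℝ} (hF : HolB p w F B) {W : Type*} [NormedAddCommGroup W]
    [NormedSpace ℂ W] [StrictConvexSpace ℝ W] {φ : E → W} {y : E} (hy : Reg (n := n) p F y)
    (hφ : FHol n p F φ y) (hm : ∀ᶠ y' in 𝓝 y, F y' = F y → ‖φ y'‖ ≤ ‖φ y‖) :
    ∀ᶠ y' in 𝓝 y, F y' = F y → φ y' = φ y :=
  FHol.const_of_max' hp (holA_of hF) hy hφ hm

theorem FRe.const_of_max' (hp : IsCoveringMap p)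
    {q : ℕ} {F : E → Cm q} (hF : HolA n p F) {φ : E → ℝ} {y : E}
    (hy : Reg (n := n) p F y)
    (hφ : FRe n p F φ y) (hm : ∀ᶠ y' in 𝓝 y, F y' = F y → φ y' ≤ φ y) :
    ∀ᶠ y' in 𝓝 y, F y' = F y → φ y' = φ y := by
  obtain ⟨e, he, g, h1, h2⟩ := hφ
  obtain ⟨f, h3, h4⟩ := hF y e he
  have h5 : F y = f (e (p y)) := h4.self_of_nhds
  have h6 : φ y = (g (e (p y))).re := h2.self_of_nhds rfl
  have h7 : ∀ᶠ z in 𝓝 (e (p y)), f z = f (e (p y)) → (g z).re ≤ (g (e (p y))).re := by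
    rw [← ev_iff' hp he]
    filter_upwards [h2, h4, hm] with y' a1 a2 a3 a4
    have a5 : F y' = F y := by rw [a2, h5, a4]
    rw [← a1 a5, ← h6]
    exact a3 a5
  have h8 := H221.const_of_max_re h3 (hy e f he h4) h1 h7
  rw [← ev_iff' hp he] at h8
  filter_upwards [h2, h4, h8] with y' a1 a2 a3 a4
  rw [a1 a4, h6]
  refine a3 ?_
  rw [← a2, a4, h5]

theorem FRe.const_of_max (hp : IsCoveringMap p) {w : Chart n X → Cm n → Matrix (Fin n) (Fin n) ℂ}
    {q : ℕ} {F : E → Cm q} {B : ℝ} (hF : HolB p w F B) {φ : E → ℝ} {y : E}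
    (hy : Reg (n := n) p F y)
    (hφ : FRe n p F φ y) (hm : ∀ᶠ y' in 𝓝 y, F y' = F y → φ y' ≤ φ y) :
    ∀ᶠ y' in 𝓝 y, F y' = F y → φ y' = φ y :=
  FRe.const_of_max' hp (holA_of hF) hy hφ hm

end transport

/-! ### compact fundamental sets for `K'` on the fibres -/

section fund
variable {X : Type} [TopologicalSpace X] {E Γ : Type} [TopologicalSpace E] [Group Γ] [MulAction Γ E]
  {p : E → X} {q : ℕ} {F : E → Cm q} {c : Γ → Cm q}

omit [TopologicalSpace E] in
lemma period_add [Nonempty E] (hFe : ∀ (g : Γ) (y : E), F (g • y) = F y + c g) (g h : Γ) :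
    c (g * h) = c g + c h := by
  obtain ⟨y⟩ := ‹Nonempty E›
  have h1 := hFe (g * h) y
  rw [mul_smul, hFe, hFe] at h1
  have h2 : F y + c (g * h) = F y + (c g + c h) := by rw [← h1]; abel
  exact add_left_cancel h2

/-- finite index is transitive, in the form with finite covering sets -/
lemma fi_trans {K K' : Subgroup Γ}
    (h1 : ∃ S : Set Γ, S.Finite ∧ ∀ g, c g = 0 → ∃ f ∈ S, f⁻¹ * g ∈ K)
    (h2 : (K'.subgroupOf K).FiniteIndex) :
    ∃ S : Set Γ, S.Finite ∧ ∀ g, c g = 0 → ∃ f ∈ S, f⁻¹ * g ∈ K' := by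
  obtain ⟨S, hS, h3⟩ := h1
  obtain ⟨S', hS', -, h4⟩ := H213.Grp.cover_of_fi h2
  refine ⟨(fun x : Γ × Γ => x.1 * x.2) '' (S ×ˢ S'), (hS.prod hS').image _, fun g hg => ?_⟩
  obtain ⟨f, hf, h5⟩ := h3 g hg
  obtain ⟨f', hf', h6⟩ := h4 _ h5
  refine ⟨f * f', ⟨(f, f'), ⟨hf, hf'⟩, rfl⟩, ?_⟩
  rw [mul_inv_rev, mul_assoc]
  exact h6

/-- compact sets meeting all `K'`-orbits of the points with `‖F y‖ ≤ R` -/
theorem exists_fund_K [T2Space X] [CompactSpace X] [Nonempty E] (hp : IsGalois Γ p)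
    (hFc : Continuous F)
    (hFe : ∀ (g : Γ) (y : E), F (g • y) = F y + c g)
    (hd : ∀ R : ℝ, {v | (∃ g : Γ, c g = v) ∧ ‖v‖ ≤ R}.Finite) (K' : Subgroup Γ)
    (hfi : ∃ S : Set Γ, S.Finite ∧ ∀ g, c g = 0 → ∃ f ∈ S, f⁻¹ * g ∈ K') (R : ℝ) :
    ∃ C : Set E, IsCompact C ∧ ∀ y, ‖F y‖ ≤ R → ∃ k ∈ K', k • y ∈ C := by
  classical
  obtain ⟨Q, hQ, -, hQ'⟩ := H885.exists_fund hp
  obtain ⟨M, hM⟩ := hQ.exists_bound_of_continuousOn hFc.continuousOn
  obtain ⟨S, hS, hS'⟩ := hfi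
  set V := {v | (∃ g : Γ, c g = v) ∧ ‖v‖ ≤ M + R} with hV
  have hVf : V.Finite := hd _
  have hadd := period_add hFe
  have h0 : c 1 = 0 := by
    have := hadd 1 1
    rw [mul_one] at this
    simpa using this
  have hinv : ∀ g, c g⁻¹ = -c g := fun g => by
    have := hadd g⁻¹ g
    rw [inv_mul_cancel, h0] at this
    exact eq_neg_of_add_eq_zero_left this.symm
  choose! γ hγ using fun v (hv : v ∈ V) => hv.1
  refine ⟨⋃ v ∈ V, ⋃ f ∈ S, (fun y : E => (f⁻¹ * (γ v)⁻¹) • y) '' Q,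
    hVf.isCompact_biUnion fun v _ => hS.isCompact_biUnion fun f _ => hQ.image (hp.cont _),
    fun y hy => ?_⟩
  obtain ⟨g, hg⟩ := hQ' y
  have h1 : c g ∈ V := by
    refine ⟨⟨g, rfl⟩, ?_⟩
    have h2 : c g = F (g • y) - F y := by rw [hFe]; abel
    rw [h2]
    exact (norm_sub_le _ _).trans (add_le_add (hM _ hg) hy)
  have h3 : c ((γ (c g))⁻¹ * g) = 0 := by
    rw [hadd, hinv, hγ _ h1]
    abel
  obtain ⟨f, hf, h4⟩ := hS' _ h3
  refine ⟨f⁻¹ * ((γ (c g))⁻¹ * g), h4, ?_⟩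
  refine mem_biUnion h1 (mem_biUnion hf ⟨g • y, hg, ?_⟩)
  show (f⁻¹ * (γ (c g))⁻¹) • g • y = _
  rw [smul_smul, mul_assoc]

end fund

/-! ### the global maximum principle -/

section glob
variable {n : ℕ} {X : Type} [TopologicalSpace X] [ChartedSpace (Cm n) X]
  {E Γ : Type} [TopologicalSpace E] [Group Γ] [MulAction Γ E]
  {p : E → X} {q : ℕ} {F : E → Cm q} {c : Γ → Cm q}

/-- abstract form: `N` is the function whose maximum is taken, `R y y'` the conclusion -/
theorem glob_max {Y : Set E} (hYc : IsClosed Y) (hY : IsPreconnected Y) {α : Type*}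
    [TopologicalSpace α] [T2Space α]
    {φ : E → α} {N : E → ℝ} (hφ : ContinuousOn φ Y) (hN : ContinuousOn N Y)
    {K' : Set Γ} (hinv : ∀ k ∈ K', ∀ y ∈ Y, k • y ∈ Y ∧ N (k • y) = N y)
    {C : Set E} (hC : IsCompact C) (hCK : ∀ y ∈ Y, ∃ k ∈ K', k • y ∈ C)
    (hdep : ∀ y ∈ Y, ∀ y' ∈ Y, φ y = φ y' → N y = N y')
    (hloc : ∀ y ∈ Y, (∀ y' ∈ Y, N y' ≤ N y) → ∀ᶠ y' in 𝓝 y, y' ∈ Y → φ y' = φ y) :
    ∀ y ∈ Y, ∀ y' ∈ Y, φ y = φ y' := by
  rcases Y.eq_empty_or_nonempty with h | ⟨y₀, hy₀⟩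
  · intro y hy; rw [h] at hy; exact absurd hy (Set.notMem_empty _)
  have hCY : IsCompact (C ∩ Y) := hC.inter_right hYc
  obtain ⟨k₀, hk₀, hk₀'⟩ := hCK y₀ hy₀
  have hne : (C ∩ Y).Nonempty := ⟨k₀ • y₀, hk₀', (hinv k₀ hk₀ y₀ hy₀).1⟩
  obtain ⟨y₁, ⟨-, hy₁⟩, hmax⟩ := hCY.exists_isMaxOn hne (hN.mono inter_subset_right)
  have hmax' : ∀ y ∈ Y, N y ≤ N y₁ := by
    intro y hy
    obtain ⟨k, hk, hk'⟩ := hCK y hy
    rw [← (hinv k hk y hy).2]
    exact hmax ⟨hk', (hinv k hk y hy).1⟩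
  -- the set where `φ = φ y₁` is clopen in `Y`
  have key : ∀ y ∈ Y, φ y = φ y₁ := by
    have h1 : Y ⊆ {y | y ∈ Y ∧ φ y = φ y₁} := by
      have hpc := isPreconnected_iff_subset_of_disjoint_closed.1 hY
      have hsub : PreconnectedSpace Y := isPreconnected_iff_preconnectedSpace.1 hY
      have hcl : IsClopen {y : Y | φ y = φ y₁} := by
        constructor
        · have hc : Continuous (fun y : Y => φ y) := continuousOn_iff_continuous_domRestrict.1 hφ
          exact isClosed_eq hc continuous_const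
        · rw [isOpen_iff_mem_nhds]
          rintro ⟨y, hy⟩ (hyy : φ y = φ y₁)
          have h2 : ∀ y' ∈ Y, N y' ≤ N y := by
            intro y' hy'
            rw [hdep y hy y₁ hy₁ hyy]
            exact hmax' y' hy'
          have h3 := hloc y hy h2
          have h4 : ∀ᶠ y' : Y in 𝓝 ⟨y, hy⟩, φ (y' : E) = φ y := by
            have h5 := (continuous_subtype_val (p := fun y => y ∈ Y)).continuousAt
              (x := ⟨y, hy⟩) |>.eventually h3
            filter_upwards [h5] with y' h6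
            exact h6 y'.2
          filter_upwards [h4] with y' h6
          show φ (y' : E) = φ y₁
          rw [h6, hyy]
      have h2 := hcl.eq_univ ⟨⟨y₁, hy₁⟩, rfl⟩
      intro y hy
      have h3 : (⟨y, hy⟩ : Y) ∈ {y : Y | φ y = φ y₁} := by rw [h2]; trivial
      exact ⟨hy, h3⟩
    exact fun y hy => (h1 hy).2
  intro y hy y' hy'
  rw [key y hy, key y' hy']

variable [T2Space X] [CompactSpace X]

/-- **(C7)** a function on a regular connected fibre, holomorphic along the fibre, with values in a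
strictly convex (e.g. Hilbert) space and with `K'`-invariant norm, is constant. -/
theorem const_on_fib' (hp : IsGalois Γ p)
    (hF : HolA n p F)
    (hFe : ∀ (g : Γ) (y : E), F (g • y) = F y + c g)
    (hd : ∀ R : ℝ, {v | (∃ g : Γ, c g = v) ∧ ‖v‖ ≤ R}.Finite) (K' : Subgroup Γ)
    (hK : ∀ k ∈ K', c k = 0)
    (hfi : ∃ S : Set Γ, S.Finite ∧ ∀ g, c g = 0 → ∃ f ∈ S, f⁻¹ * g ∈ K')
    {t : Cm q} (hconn : IsPreconnected (F ⁻¹' {t})) (hreg : ∀ y, F y = t → Reg (n := n) p F y)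
    {W : Type*} [NormedAddCommGroup W] [NormedSpace ℂ W] [StrictConvexSpace ℝ W] {φ : E → W}
    (hφc : ContinuousOn φ (F ⁻¹' {t}))
    (hφ : ∀ y, F y = t → FHol n p F φ y)
    (hinv : ∀ k ∈ K', ∀ y, F y = t → ‖φ (k • y)‖ = ‖φ y‖) :
    ∀ y y', F y = t → F y' = t → φ y = φ y' := by
  intro y y' hy hy'
  have : Nonempty E := ⟨y⟩
  have hFc : Continuous F := holA_cont hp.cov hF
  obtain ⟨C, hC, hCK⟩ := exists_fund_K hp hFc hFe hd K' hfi ‖t‖
  refine glob_max (Y := F ⁻¹' {t}) (K' := (K' : Set Γ)) (N := fun y => ‖φ y‖)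
    (isClosed_singleton.preimage hFc) hconn hφc hφc.norm ?_ hC ?_ ?_ ?_ y hy y' hy'
  · intro k hk z hz
    refine ⟨?_, hinv k hk z hz⟩
    show F (k • z) = t
    rw [hFe, hK k hk, add_zero]
    exact hz
  · intro z hz
    refine hCK z (le_of_eq ?_)
    rw [show F z = t from hz]
  · intro z _ z' _ h
    show ‖φ z‖ = ‖φ z'‖
    rw [h]
  · intro z hz hmax
    have hz' : F z = t := hz
    have h1 : ∀ᶠ y' in 𝓝 z, F y' = F z → ‖φ y'‖ ≤ ‖φ z‖ :=
      Eventually.of_forall fun y' h => hmax y' (by show F y' = t; rw [h, hz'])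
    filter_upwards [FHol.const_of_max' hp.cov hF (hreg z hz') (hφ z hz') h1] with y' h2 h3
    exact h2 (by rw [hz']; exact h3)

/-- version for functions which are locally the real part of a holomorphic function -/
theorem const_on_fib_re' (hp : IsGalois Γ p)
    (hF : HolA n p F)
    (hFe : ∀ (g : Γ) (y : E), F (g • y) = F y + c g)
    (hd : ∀ R : ℝ, {v | (∃ g : Γ, c g = v) ∧ ‖v‖ ≤ R}.Finite) (K' : Subgroup Γ)
    (hK : ∀ k ∈ K', c k = 0)
    (hfi : ∃ S : Set Γ, S.Finite ∧ ∀ g, c g = 0 → ∃ f ∈ S, f⁻¹ * g ∈ K')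
    {t : Cm q} (hconn : IsPreconnected (F ⁻¹' {t})) (hreg : ∀ y, F y = t → Reg (n := n) p F y)
    {φ : E → ℝ} (hφc : ContinuousOn φ (F ⁻¹' {t}))
    (hφ : ∀ y, F y = t → FRe n p F φ y)
    (hinv : ∀ k ∈ K', ∀ y, F y = t → φ (k • y) = φ y) :
    ∀ y y', F y = t → F y' = t → φ y = φ y' := by
  intro y y' hy hy'
  have : Nonempty E := ⟨y⟩
  have hFc : Continuous F := holA_cont hp.cov hF
  obtain ⟨C, hC, hCK⟩ := exists_fund_K hp hFc hFe hd K' hfi ‖t‖
  refine glob_max (Y := F ⁻¹' {t}) (K' := (K' : Set Γ)) (N := φ)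
    (isClosed_singleton.preimage hFc) hconn hφc hφc ?_ hC ?_ ?_ ?_ y hy y' hy'
  · intro k hk z hz
    refine ⟨?_, hinv k hk z hz⟩
    show F (k • z) = t
    rw [hFe, hK k hk, add_zero]
    exact hz
  · intro z hz
    refine hCK z (le_of_eq ?_)
    rw [show F z = t from hz]
  · intro z _ z' _ h
    exact h
  · intro z hz hmax
    have hz' : F z = t := hz
    have h1 : ∀ᶠ y' in 𝓝 z, F y' = F z → φ y' ≤ φ z :=
      Eventually.of_forall fun y' h => hmax y' (by show F y' = t; rw [h, hz'])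
    filter_upwards [FRe.const_of_max' hp.cov hF (hreg z hz') (hφ z hz') h1] with y' h2 h3
    exact h2 (by rw [hz']; exact h3)

theorem const_on_fib (hp : IsGalois Γ p)
    {w : Chart n X → Cm n → Matrix (Fin n) (Fin n) ℂ} {B : ℝ} (hF : HolB p w F B)
    (hFe : ∀ (g : Γ) (y : E), F (g • y) = F y + c g)
    (hd : ∀ R : ℝ, {v | (∃ g : Γ, c g = v) ∧ ‖v‖ ≤ R}.Finite) (K' : Subgroup Γ)
    (hK : ∀ k ∈ K', c k = 0)
    (hfi : ∃ S : Set Γ, S.Finite ∧ ∀ g, c g = 0 → ∃ f ∈ S, f⁻¹ * g ∈ K')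
    {t : Cm q} (hconn : IsPreconnected (F ⁻¹' {t})) (hreg : ∀ y, F y = t → Reg (n := n) p F y)
    {W : Type*} [NormedAddCommGroup W] [NormedSpace ℂ W] [StrictConvexSpace ℝ W] {φ : E → W}
    (hφc : ContinuousOn φ (F ⁻¹' {t}))
    (hφ : ∀ y, F y = t → FHol n p F φ y)
    (hinv : ∀ k ∈ K', ∀ y, F y = t → ‖φ (k • y)‖ = ‖φ y‖) :
    ∀ y y', F y = t → F y' = t → φ y = φ y' :=
  const_on_fib' hp (holA_of hF) hFe hd K' hK hfi hconn hreg hφc hφ hinv

theorem const_on_fib_re (hp : IsGalois Γ p)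
    {w : Chart n X → Cm n → Matrix (Fin n) (Fin n) ℂ} {B : ℝ} (hF : HolB p w F B)
    (hFe : ∀ (g : Γ) (y : E), F (g • y) = F y + c g)
    (hd : ∀ R : ℝ, {v | (∃ g : Γ, c g = v) ∧ ‖v‖ ≤ R}.Finite) (K' : Subgroup Γ)
    (hK : ∀ k ∈ K', c k = 0)
    (hfi : ∃ S : Set Γ, S.Finite ∧ ∀ g, c g = 0 → ∃ f ∈ S, f⁻¹ * g ∈ K')
    {t : Cm q} (hconn : IsPreconnected (F ⁻¹' {t})) (hreg : ∀ y, F y = t → Reg (n := n) p F y)
    {φ : E → ℝ} (hφc : ContinuousOn φ (F ⁻¹' {t}))
    (hφ : ∀ y, F y = t → FRe n p F φ y)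
    (hinv : ∀ k ∈ K', ∀ y, F y = t → φ (k • y) = φ y) :
    ∀ y y', F y = t → F y' = t → φ y = φ y' :=
  const_on_fib_re' hp (holA_of hF) hFe hd K' hK hfi hconn hreg hφc hφ hinv

end glob

end Vale.Agent.P284.H221
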