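import Vale.Agent.P284.H913.V18
import Vale.Agent.P284.H446.FolSub
import Vale.Agent.P284.H213.Grp.Basic

/-!
# P284 (helper221), piece (C6) of [C]: finite dimensional real representations of a finitely generated
amenable group which is not virtually indicable have finite image; homomorphisms to real vector spaces
vanish.
-/

noncomputable section

namespace Vale.Agent.P284.H221

open Vale.Agent.P272.K Vale.Agent.P284.H894.V Vale.Agent.P284.H894.G

section abs
variable {K : Type} [Group K]

/-- the image of a finite dimensional real representation is finite -/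
theorem finite_range (hfg : Group.FG K) (hF : Folner K) (hnv : ¬ VirtIndicable K) {V : Type}
    [AddCommGroup V] [Module ℝ V] [FiniteDimensional ℝ V] (ρ : K →* (V →ₗ[ℝ] V)) :
    (Set.range ρ).Finite := by
  by_contra h
  exact hnv (H913.V.v18Stmt K hfg hF V ρ h)

/-- a subgroup of finite index acts trivially -/
theorem exists_trivial (hfg : Group.FG K) (hF : Folner K) (hnv : ¬ VirtIndicable K) {V : Type}
    [AddCommGroup V] [Module ℝ V] [FiniteDimensional ℝ V] (ρ : K →* (V →ₗ[ℝ] V)) :
    ∃ K' : Subgroup K, K'.FiniteIndex ∧ K'.Normal ∧ ∀ k ∈ K', ρ k = 1 := by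
  have hfin : Finite (Set.range ρ) := finite_range hfg hF hnv ρ
  refine ⟨ρ.ker, ?_, inferInstance, fun k hk => hk⟩
  have : Finite (K ⧸ ρ.ker) := by
    refine Finite.of_injective (β := Set.range ρ)
      (fun x => Quotient.liftOn' x (fun k => (⟨ρ k, k, rfl⟩ : Set.range ρ)) ?_) ?_
    · intro a b hab
      have h1 : a⁻¹ * b ∈ ρ.ker := QuotientGroup.leftRel_apply.1 hab
      refine Subtype.ext ?_
      show ρ a = ρ b
      have h2 : ρ (a⁻¹ * b) = 1 := h1
      calc ρ a = ρ a * ρ (a⁻¹ * b) := by rw [h2, mul_one]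
        _ = ρ b := by rw [← map_mul, mul_inv_cancel_left]
    · intro x y
      induction x using QuotientGroup.induction_on with | _ a =>
      induction y using QuotientGroup.induction_on with | _ b =>
      intro h
      have h1 : ρ a = ρ b := congrArg Subtype.val h
      refine QuotientGroup.eq.2 ?_
      show ρ (a⁻¹ * b) = 1
      calc ρ (a⁻¹ * b) = ρ a⁻¹ * ρ b := map_mul _ _ _
        _ = ρ a⁻¹ * ρ a := by rw [h1]
        _ = 1 := by rw [← map_mul, inv_mul_cancel, map_one]
  exact Subgroup.finiteIndex_of_finite_quotient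

/-- unbundled version: linear maps `T k` of a real vector space `W`, multiplicative in `k`, which
preserve a finite dimensional subspace `V` -/
theorem exists_trivial_on (hfg : Group.FG K) (hF : Folner K) (hnv : ¬ VirtIndicable K) {W : Type*}
    [AddCommGroup W] [Module ℝ W] (T : K → W → W) (V : Submodule ℝ W) (hV : FiniteDimensional ℝ V)
    (hmap : ∀ k, ∀ v ∈ V, T k v ∈ V) (hadd : ∀ k, ∀ v ∈ V, ∀ v' ∈ V, T k (v + v') = T k v + T k v')
    (hsmul : ∀ k, ∀ (c : ℝ), ∀ v ∈ V, T k (c • v) = c • T k v) (hone : ∀ v ∈ V, T 1 v = v)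
    (hmul : ∀ k k', ∀ v ∈ V, T (k * k') v = T k (T k' v)) :
    ∃ K' : Subgroup K, K'.FiniteIndex ∧ K'.Normal ∧ ∀ k ∈ K', ∀ v ∈ V, T k v = v := by
  classical
  -- transport to `Fin d → ℝ`
  let d := Module.finrank ℝ V
  let b : V ≃ₗ[ℝ] (Fin d → ℝ) := (Module.finBasis ℝ V).equivFun
  let τ : K → (V →ₗ[ℝ] V) := fun k =>
    { toFun := fun v => ⟨T k v, hmap k v v.2⟩
      map_add' := fun v v' => Subtype.ext (hadd k v v.2 v' v'.2)
      map_smul' := fun c v => Subtype.ext (hsmul k c v v.2) }
  let ρ : K →* ((Fin d → ℝ) →ₗ[ℝ] (Fin d → ℝ)) :=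
    { toFun := fun k => b.toLinearMap ∘ₗ τ k ∘ₗ b.symm.toLinearMap
      map_one' := by
        refine LinearMap.ext fun x => ?_
        show b (τ 1 (b.symm x)) = x
        have h1 : τ 1 (b.symm x) = b.symm x := Subtype.ext (hone _ (b.symm x).2)
        rw [h1, LinearEquiv.apply_symm_apply]
      map_mul' := fun k k' => by
        refine LinearMap.ext fun x => ?_
        show b (τ (k * k') (b.symm x)) = b (τ k (b.symm (b (τ k' (b.symm x)))))
        rw [LinearEquiv.symm_apply_apply]
        congr 1
        exact Subtype.ext (hmul k k' _ (b.symm x).2) }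
  obtain ⟨K', h1, h2, h3⟩ := exists_trivial hfg hF hnv ρ
  refine ⟨K', h1, h2, fun k hk v hv => ?_⟩
  have h4 : ρ k (b ⟨v, hv⟩) = b ⟨v, hv⟩ := by rw [h3 k hk]; rfl
  have h5 : b (τ k (b.symm (b ⟨v, hv⟩))) = b ⟨v, hv⟩ := h4
  rw [LinearEquiv.symm_apply_apply] at h5
  exact congrArg Subtype.val (b.injective h5)

/-- homomorphisms to a real vector space vanish -/
theorem hom_zero (hfg : Group.FG K) (hnv : ¬ VirtIndicable K) {W : Type*}
    [AddCommGroup W] [Module ℝ W] (f : K → W) (hf : ∀ k k', f (k * k') = f k + f k') (k : K) :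
    f k = 0 := by
  classical
  by_contra hk
  apply hnv
  have := hfg
  let φ : K →* Multiplicative W :=
    { toFun := fun k => Multiplicative.ofAdd (f k)
      map_one' := by
        have h := hf 1 1
        rw [mul_one] at h
        have h0 : f 1 = 0 := by simpa using h
        rw [h0]; rfl
      map_mul' := fun a b => by rw [hf]; rfl }
  have hr : Group.FG φ.range := inferInstance
  have hinf : Infinite φ.range := by
    have hinj : Function.Injective (fun n : ℕ => (φ.rangeRestrict (k ^ n))) := by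
      intro n m hnm
      have h1 : φ (k ^ n) = φ (k ^ m) := congrArg Subtype.val hnm
      have h2 : ∀ n : ℕ, φ (k ^ n) = Multiplicative.ofAdd ((n : ℝ) • f k) := by
        intro n
        rw [map_pow]
        induction n with
        | zero => simp
        | succ n ih =>
          rw [pow_succ, ih]
          show Multiplicative.ofAdd ((n : ℝ) • f k) * Multiplicative.ofAdd (f k) = _
          rw [← ofAdd_add]
          congr 1
          push_cast
          rw [add_smul, one_smul]
      rw [h2, h2] at h1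
      have h3 : (n : ℝ) • f k = (m : ℝ) • f k := Multiplicative.ofAdd.injective h1
      have h4 := smul_left_injective ℝ hk h3
      exact_mod_cast h4
    exact Infinite.of_injective _ hinj
  obtain ⟨ψ, hψ⟩ := H913.V.exists_surj_int φ.range
  exact H913.V.VirtIndicable.of_surj_int (ψ.comp φ.rangeRestrict)
    (hψ.comp φ.rangeRestrict_surjective)

end abs

section sub
variable {Γ : Type} [Group Γ]

theorem VirtIndicable.up {K K' : Subgroup Γ} (hle : K' ≤ K) (hfi : (K'.subgroupOf K).FiniteIndex)
    (h : VirtIndicable K') : VirtIndicable K := by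
  have := hfi
  refine H913.V.VirtIndicable.of_subgroup (K'.subgroupOf K) ?_
  exact H913.V.VirtIndicable.of_surjective (Subgroup.subgroupOfEquivOfLe hle).toMonoidHom
    (Subgroup.subgroupOfEquivOfLe hle).surjective h

theorem fg_sub {K K' : Subgroup Γ} (hle : K' ≤ K) (hfi : (K'.subgroupOf K).FiniteIndex)
    (hfg : Group.FG K) : Group.FG K' := by
  have := hfi
  have h1 : Group.FG (K'.subgroupOf K) := Subgroup.fg_of_index_ne_zero _
  exact Group.fg_of_surjective (f := (Subgroup.subgroupOfEquivOfLe hle).toMonoidHom)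
    (Subgroup.subgroupOfEquivOfLe hle).surjective

/-- `K` is a subgroup of the amenable group `Γ`: a subgroup of finite index of `K` acts trivially on a
finite dimensional subspace `V` preserved by `K` -/
theorem exists_trivial_sub (hF : Folner Γ) {K : Subgroup Γ} (hfg : Group.FG K)
    (hnv : ¬ VirtIndicable K) {W : Type*} [AddCommGroup W] [Module ℝ W] (T : Γ → W → W)
    (V : Submodule ℝ W) (hV : FiniteDimensional ℝ V)
    (hmap : ∀ k ∈ K, ∀ v ∈ V, T k v ∈ V)
    (hadd : ∀ k ∈ K, ∀ v ∈ V, ∀ v' ∈ V, T k (v + v') = T k v + T k v')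
    (hsmul : ∀ k ∈ K, ∀ (c : ℝ), ∀ v ∈ V, T k (c • v) = c • T k v)
    (hone : ∀ v ∈ V, T 1 v = v)
    (hmul : ∀ k ∈ K, ∀ k' ∈ K, ∀ v ∈ V, T (k * k') v = T k (T k' v)) :
    ∃ K' : Subgroup Γ, K' ≤ K ∧ (K'.subgroupOf K).FiniteIndex ∧ ∀ k ∈ K', ∀ v ∈ V, T k v = v := by
  obtain ⟨L, h1, -, h3⟩ := exists_trivial_on hfg (H446.QC.folner_subgroup hF K) hnv
    (fun k : K => T k) V hV (fun k => hmap k k.2) (fun k => hadd k k.2) (fun k => hsmul k k.2)
    hone (fun k k' => hmul k k.2 k' k'.2)
  refine ⟨L.map K.subtype, ?_, ?_, ?_⟩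
  · rintro _ ⟨k, -, rfl⟩
    exact k.2
  · have h4 : (L.map K.subtype).subgroupOf K = L := by
      ext k
      rw [Subgroup.mem_subgroupOf, Subgroup.mem_map]
      constructor
      · rintro ⟨l, hl, hlk⟩
        have : l = k := Subtype.ext hlk
        rwa [← this]
      · intro hk
        exact ⟨k, hk, rfl⟩
    rw [h4]
    exact h1
  · rintro _ ⟨k, hk, rfl⟩ v hv
    exact h3 k hk v hv

/-- homomorphisms of a subgroup of finite index of `K` to a real vector space vanish -/
theorem hom_zero_sub {K K' : Subgroup Γ} (hfg : Group.FG K) (hnv : ¬ VirtIndicable K) (hle : K' ≤ K)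
    (hfi : (K'.subgroupOf K).FiniteIndex) {W : Type*} [AddCommGroup W] [Module ℝ W] (f : Γ → W)
    (hf : ∀ k ∈ K', ∀ k' ∈ K', f (k * k') = f k + f k') (k : Γ) (hk : k ∈ K') : f k = 0 :=
  hom_zero (fg_sub hle hfi hfg) (fun h => hnv (VirtIndicable.up hle hfi h))
    (fun x : K' => f x) (fun x y => hf x x.2 y y.2) ⟨k, hk⟩

end sub

end Vale.Agent.P284.H221
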