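import Vale.Agent.P284.H213.Q.Fg
import Vale.Agent.P284.H885.Ker2
import Mathlib.Topology.GDelta.Basic
import Mathlib.Topology.Baire.Lemmas
import Mathlib.Topology.Compactness.SigmaCompact

/-!
# P284 (helper221), piece [GF]: a set with thin complement meets the generic fibre in a dense set

`meagre_local`: `f` holomorphic, `h` holomorphic and not identically zero on a connected open set; for
`t` outside a meagre set, `h` does not vanish identically near any regular point of `{f = t}` on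
`{f = t}`. `gf_generic`: the version on the covering space `E`.
-/

open scoped Manifold ContDiff Topology
open Filter Set Metric

noncomputable section

namespace Vale.Agent.P284.H221

open Vale.Agent.P272.K Vale.Agent.P284.H894.G Vale.Agent.P284.H894.W

/-! ### local part -/

section loc
variable {S T : Type*} [NormedAddCommGroup S] [NormedSpace ℂ S] [FiniteDimensional ℂ S]
  [NormedAddCommGroup T] [NormedSpace ℂ T] [FiniteDimensional ℂ T]

/-- a submersion is a projection in suitable coordinates -/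
theorem straighten {f : S → T} {z0 : S} (hf : AnalyticAt ℂ f z0)
    (hs : Function.Surjective (fderiv ℂ f z0)) :
    ∃ (N : Submodule ℂ S) (F : OpenPartialHomeomorph S (T × N)), z0 ∈ F.source ∧
      F z0 = (f z0, 0) ∧ (∀ z, (F z).1 = f z) ∧ AnalyticAt ℂ F.symm (f z0, 0) := by
  classical
  have : CompleteSpace S := FiniteDimensional.complete ℂ S
  have : CompleteSpace T := FiniteDimensional.complete ℂ T
  set L : S →L[ℂ] T := fderiv ℂ f z0 with hL
  let N : Submodule ℂ S := LinearMap.ker (L : S →ₗ[ℂ] T)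
  obtain ⟨P, hP⟩ : ∃ P : S →L[ℂ] N, ∀ x : N, P x = x :=
    Submodule.ClosedComplemented.of_finiteDimensional_quotient (Submodule.closed_of_finiteDimensional N)
  have hbij : Function.Bijective (L.prod P) := by
    constructor
    · rw [injective_iff_map_eq_zero]
      intro v hv
      have h1 : L v = 0 := congrArg Prod.fst hv
      have h2 : P v = 0 := congrArg Prod.snd hv
      have h3 : v ∈ N := h1
      have h4 : P v = ⟨v, h3⟩ := hP ⟨v, h3⟩
      rw [h4] at h2
      exact congrArg Subtype.val h2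
    · rintro ⟨a, b⟩
      obtain ⟨v, hv⟩ := hs a
      refine ⟨v - P v + b, Prod.ext ?_ ?_⟩
      · show L (v - P v + b) = a
        have h5 : L (P v : S) = 0 := (P v).2
        have h6 : L (b : S) = 0 := b.2
        rw [map_add, map_sub, h5, h6, sub_zero, add_zero]
        exact hv
      · show P (v - P v + b) = b
        rw [map_add, map_sub, hP, hP, sub_self, zero_add]
  let i : S ≃L[ℂ] (T × N) := ContinuousLinearEquiv.ofBijective (L.prod P)
    (LinearMap.ker_eq_bot.2 hbij.1) (LinearMap.range_eq_top.2 hbij.2)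
  let G : S → T × N := fun z => (f z, P (z - z0))
  have hGan : AnalyticAt ℂ G z0 :=
    hf.prod ((P.analyticAt _).comp (analyticAt_id.sub analyticAt_const))
  have hGd : HasStrictFDerivAt G (i : S →L[ℂ] (T × N)) z0 := by
    have h1 : HasStrictFDerivAt f L z0 := hf.hasStrictFDerivAt
    have h2 : HasStrictFDerivAt (fun z => P (z - z0)) P z0 := by
      have h3 : HasStrictFDerivAt (fun z : S => z - z0) (ContinuousLinearMap.id ℂ S) z0 :=
        (hasStrictFDerivAt_id z0).sub_const z0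
      have h4 : HasStrictFDerivAt P P (z0 - z0) := P.hasStrictFDerivAt
      exact HasStrictFDerivAt.comp (g := P) (f := fun z : S => z - z0) z0 h4 h3
    exact h1.prodMk h2
  let F := hGd.toOpenPartialHomeomorph G
  have ha : z0 ∈ F.source := hGd.mem_toOpenPartialHomeomorph_source
  have hFG : ∀ x, F x = G x := fun x => rfl
  have hG0 : G z0 = (f z0, 0) := by
    show (f z0, P (z0 - z0)) = _
    rw [sub_self, map_zero]
  refine ⟨N, F, ha, hG0, fun z => rfl, ?_⟩
  have := OpenPartialHomeomorph.analyticAt_symm' F ha hGan (hGd.hasFDerivAt.fderiv)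
  rw [hFG, hG0] at this
  exact this

omit [FiniteDimensional ℂ T] in
/-- the zero set of an analytic function in a ball is nowhere dense -/
theorem nowhereDense_zeros {g : T → ℂ} {t0 : T} {δ : ℝ} (hg : AnalyticOnNhd ℂ g (ball t0 δ))
    {t1 : T} (ht1 : t1 ∈ ball t0 δ) (h1 : g t1 ≠ 0) :
    IsNowhereDense {t | t ∈ ball t0 δ ∧ g t = 0} := by
  rw [IsNowhereDense, eq_empty_iff_forall_notMem]
  intro x hx
  have h2 : (interior (closure {t | t ∈ ball t0 δ ∧ g t = 0}) ∩
      {t | t ∈ ball t0 δ ∧ g t = 0}).Nonempty :=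
    mem_closure_iff.1 (interior_subset hx) _ isOpen_interior hx
  obtain ⟨t2, h3, h4, h5⟩ := h2
  have h6 : ∀ᶠ t in 𝓝 t2, g t = 0 := by
    filter_upwards [isOpen_interior.mem_nhds h3, isOpen_ball.mem_nhds h4] with t h7 h8
    have h9 : t ∈ closure {t | t ∈ ball t0 δ ∧ g t = 0} := interior_subset h7
    have h10 : (∃ᶠ t' in 𝓝 t, t' ∈ {t | t ∈ ball t0 δ ∧ g t = 0}) :=
      mem_closure_iff_frequently.1 h9
    by_contra hne
    have h11 : ∀ᶠ t' in 𝓝 t, g t' ≠ 0 := (hg t h8).continuousAt.eventually_ne hne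
    exact h10 (h11.mono fun t' a b => a b.2)
  have h7 := hg.eqOn_zero_of_preconnected_of_eventuallyEq_zero (convex_ball t0 δ).isPreconnected
    h4 h6
  exact h1 (h7 ht1)

/-- local version in a box around a regular point -/
theorem box_local {f : S → T} {h : S → ℂ} {U : Set S} (hU : IsOpen U) (hUc : IsPreconnected U)
    (hf : AnalyticOnNhd ℂ f U) (hh : AnalyticOnNhd ℂ h U) (hne : ∃ z ∈ U, h z ≠ 0)
    {z1 : S} (hz1 : z1 ∈ U) (hs : Function.Surjective (fderiv ℂ f z1)) :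
    ∃ V ∈ 𝓝 z1, ∃ B : Set T, IsNowhereDense B ∧
      ∀ z ∈ V, (∀ᶠ z' in 𝓝 z, f z' = f z → h z' = 0) → f z ∈ B := by
  obtain ⟨N, F, h1, h2, h3, h4⟩ := straighten (hf z1 hz1) hs
  have hc : ContinuousAt F.symm (f z1, (0 : N)) := h4.continuousAt
  have h5 : F.symm (f z1, (0 : N)) = z1 := by
    rw [← h2]
    exact F.left_inv h1
  have h6 : ∀ᶠ x in 𝓝 ((f z1, (0 : N)) : T × N), AnalyticAt ℂ F.symm x ∧ F.symm x ∈ U ∧
      x ∈ F.target := by
    refine (h4.eventually_analyticAt).and ((hc.eventually ?_).and ?_)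
    · rw [h5]; exact hU.mem_nhds hz1
    · refine F.open_target.mem_nhds ?_
      rw [← h2]
      exact F.map_source h1
  obtain ⟨δ, hδ, h7⟩ := Metric.eventually_nhds_iff_ball.1 h6
  have hbox : ∀ t ∈ ball (f z1) δ, ∀ x ∈ ball (0 : N) δ, ((t, x) : T × N) ∈
      ball ((f z1, (0 : N)) : T × N) δ := by
    intro t ht x hx
    rw [← ball_prod_same]
    exact ⟨ht, hx⟩
  set H : T × N → ℂ := fun x => h (F.symm x) with hH
  have hHan : AnalyticOnNhd ℂ H (ball ((f z1, (0 : N)) : T × N) δ) := by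
    intro x hx
    obtain ⟨a1, a2, -⟩ := h7 x hx
    exact (hh _ a2).comp a1
  -- `H` is not identically zero
  have hHne : ∃ t ∈ ball (f z1) δ, ∃ x ∈ ball (0 : N) δ, H (t, x) ≠ 0 := by
    by_contra hcon
    push Not at hcon
    have h8 : ∀ᶠ z in 𝓝 z1, h z = 0 := by
      have h9 : ∀ᶠ z in 𝓝 z1, F z ∈ ball ((f z1, (0 : N)) : T × N) δ := by
        refine (F.continuousAt h1).eventually ?_
        rw [h2]
        exact ball_mem_nhds _ hδ
      filter_upwards [h9, F.open_source.mem_nhds h1] with z a1 a2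
      rw [← ball_prod_same] at a1
      have := hcon (F z).1 a1.1 (F z).2 a1.2
      rw [hH] at this
      simp only [Prod.mk.eta] at this
      rwa [F.left_inv a2] at this
    have h9 := hh.eqOn_zero_of_preconnected_of_eventuallyEq_zero hUc hz1 h8
    obtain ⟨z, hz, hz'⟩ := hne
    exact hz' (h9 hz)
  obtain ⟨t1, ht1, x1, hx1, hH1⟩ := hHne
  refine ⟨F.source ∩ F ⁻¹' (ball ((f z1, (0 : N)) : T × N) δ), ?_,
    {t | t ∈ ball (f z1) δ ∧ H (t, x1) = 0}, ?_, ?_⟩
  · refine (F.isOpen_inter_preimage isOpen_ball).mem_nhds ⟨h1, ?_⟩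
    rw [mem_preimage, h2]
    exact mem_ball_self hδ
  · refine nowhereDense_zeros (g := fun t => H (t, x1)) (fun t ht => ?_) ht1 hH1
    have h8 : AnalyticAt ℂ (fun t : T => ((t, x1) : T × N)) t := analyticAt_id.prod analyticAt_const
    exact AnalyticAt.fun_comp (f := fun t : T => ((t, x1) : T × N)) (hHan _ (hbox t ht x1 hx1)) h8
  · rintro z ⟨hz1', hz2⟩ hz3
    rw [mem_preimage] at hz2
    have h8 : F z = (f z, (F z).2) := Prod.ext (h3 z) rfl
    have hz2' := hz2
    rw [← ball_prod_same] at hz2'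
    have ht : f z ∈ ball (f z1) δ := by
      have := hz2'.1
      rwa [h3 z] at this
    refine ⟨ht, ?_⟩
    have h9 : AnalyticOnNhd ℂ (fun x : N => H (f z, x)) (ball (0 : N) δ) := by
      intro x hx
      have h10 : AnalyticAt ℂ (fun x : N => ((f z, x) : T × N)) x :=
        analyticAt_const.prod analyticAt_id
      exact AnalyticAt.fun_comp (f := fun x : N => ((f z, x) : T × N)) (hHan _ (hbox _ ht x hx)) h10
    have h10 : ∀ᶠ x in 𝓝 (F z).2, H (f z, x) = 0 := by
      have h11 : ContinuousAt (fun x : N => F.symm (f z, x)) (F z).2 := by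
        have h12 : ContinuousAt F.symm (F z) := F.continuousAt_symm (F.map_source hz1')
        have h13 : ContinuousAt (fun x : N => ((f z, x) : T × N)) (F z).2 := by fun_prop
        refine ContinuousAt.comp (g := F.symm) ?_ h13
        rwa [← h8]
      have h12 : F.symm (f z, (F z).2) = z := by
        rw [← h8]; exact F.left_inv hz1'
      have h13 : ∀ᶠ x in 𝓝 (F z).2, f (F.symm (f z, x)) = f z → h (F.symm (f z, x)) = 0 := by
        refine h11.eventually (p := fun z' => f z' = f z → h z' = 0) ?_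
        show ∀ᶠ (y : S) in 𝓝 (F.symm (f z, (F z).2)), f y = f z → h y = 0
        rw [h12]
        exact hz3
      have h14 : ∀ᶠ x in 𝓝 (F z).2, x ∈ ball (0 : N) δ := isOpen_ball.mem_nhds hz2'.2
      filter_upwards [h13, h14] with x a1 a2
      refine a1 ?_
      rw [← h3, F.right_inv (h7 _ (hbox _ ht x a2)).2.2]
    exact h9.eqOn_zero_of_preconnected_of_eventuallyEq_zero (convex_ball (0 : N) δ).isPreconnected
      hz2'.2 h10 hx1

/-- **Local version**: for `t` outside a meagre set the function `h` does not vanish identically on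
`{f = t}` near any regular point. -/
theorem meagre_local {f : S → T} {h : S → ℂ} {U : Set S} (hU : IsOpen U) (hUc : IsPreconnected U)
    (hf : AnalyticOnNhd ℂ f U) (hh : AnalyticOnNhd ℂ h U) (hne : ∃ z ∈ U, h z ≠ 0) :
    IsMeagre {t | ∃ z ∈ U, Function.Surjective (fderiv ℂ f z) ∧ f z = t ∧
      ∀ᶠ z' in 𝓝 z, f z' = t → h z' = 0} := by
  have : ProperSpace S := FiniteDimensional.proper ℂ S
  have : SecondCountableTopology S := inferInstance
  have h1 : ∀ z : S, ∃ V ∈ 𝓝 z, ∃ B : Set T, IsNowhereDense B ∧ (z ∈ U →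
      Function.Surjective (fderiv ℂ f z) →
      ∀ z' ∈ V, (∀ᶠ z'' in 𝓝 z', f z'' = f z' → h z'' = 0) → f z' ∈ B) := by
    intro z
    by_cases hz : z ∈ U ∧ Function.Surjective (fderiv ℂ f z)
    · obtain ⟨V, hV, B, hB, h2⟩ := box_local hU hUc hf hh hne hz.1 hz.2
      exact ⟨V, hV, B, hB, fun _ _ => h2⟩
    · exact ⟨univ, univ_mem, ∅, isNowhereDense_empty, fun a b => absurd ⟨a, b⟩ hz⟩
  choose V hV B hB h2 using h1
  obtain ⟨s, hs1, hs2, hs3⟩ := TopologicalSpace.countable_cover_nhdsWithin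
    (s := {z | z ∈ U ∧ Function.Surjective (fderiv ℂ f z)}) (f := V)
    (fun z _ => mem_nhdsWithin_of_mem_nhds (hV z))
  have h3 : IsMeagre (⋃ z ∈ s, B z) := isMeagre_biUnion hs2 fun z _ => (hB z).isMeagre
  refine h3.mono ?_
  rintro t ⟨z, hz1, hz2, hz3, hz4⟩
  obtain ⟨z0, hz0, hz5⟩ := mem_iUnion₂.1 (hs3 (show z ∈ {z | z ∈ U ∧ _} from ⟨hz1, hz2⟩))
  refine mem_iUnion₂.2 ⟨z0, hz0, ?_⟩
  rw [← hz3]
  refine h2 z0 (hs1 hz0).1 (hs1 hz0).2 z hz5 ?_
  rw [hz3]
  exact hz4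

end loc

/-! ### the version on `E` -/

section glob
variable {n : ℕ} {X : Type} [TopologicalSpace X] [ChartedSpace (Cm n) X]
  {E Γ : Type} [TopologicalSpace E] [Group Γ] [MulAction Γ E] {p : E → X}

lemma at_chart (x : X) : At (chartAt (Cm n) x : Chart n X) x :=
  ⟨chart_mem_atlas _ _, mem_chart_source _ _⟩

/-- the group of a connected covering of a compact manifold is countable -/
theorem countable_grp (n : ℕ) [ChartedSpace (Cm n) X] [T2Space X] [CompactSpace X]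
    [ConnectedSpace E] (hp : IsGalois Γ p) : Countable Γ := by
  have h1 := H213.Q.fg_of_conn (p := p) (q := 0) (F := fun _ => 0) (c := fun _ : Γ => 0) n hp
    continuous_const (fun _ _ => by rw [add_zero])
    (fun R => (Set.finite_singleton (0 : Cm 0)).subset fun v _ => Subsingleton.elim _ _)
    (⊤ : Subgroup Γ) (fun _ _ => rfl) ⟨{1}, Set.finite_singleton _, fun g _ => ⟨1, rfl, trivial⟩⟩
    (t := 0) (by
      have : (fun _ : E => (0 : Cm 0)) ⁻¹' {0} = univ := by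
        ext y; simp
      rw [this]
      exact isConnected_univ)
  have h2 : Countable (⊤ : Subgroup Γ) := H885.Ker.countable_of_fg h1
  exact (Subgroup.topEquiv (G := Γ)).symm.toEquiv.injective.countable

/-- `E` is `σ`-compact -/
theorem sigmaCompact [T2Space X] [CompactSpace X] [Countable Γ] (hp : IsGalois Γ p) :
    SigmaCompactSpace E := by
  obtain ⟨Q, hQ, -, hQ'⟩ := H885.exists_fund hp
  refine SigmaCompactSpace.of_countable (range fun g : Γ => (fun y => g • y) '' Q)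
    (countable_range _) ?_ ?_
  · rintro _ ⟨g, rfl⟩
    exact hQ.image (hp.cont g)
  · rw [sUnion_range, eq_univ_iff_forall]
    intro y
    obtain ⟨g, hg⟩ := hQ' y
    refine mem_iUnion.2 ⟨g⁻¹, g • y, hg, ?_⟩
    show g⁻¹ • g • y = y
    rw [inv_smul_smul]

/-- **[GF]** a set with thin complement meets the regular part of the generic fibre of `F` in a dense
set, the complement is contained locally in the zero set of a holomorphic function which does not
vanish identically on the fibre -/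
theorem gf_generic_c [T2Space X] [CompactSpace X] [IsManifold 𝓘(ℂ, Cm n) ω X] [Countable Γ]
    (hp : IsGalois Γ p) {q : ℕ} {F : E → Cm q} (hF : HolA n p F) {𝒢 : Set E}
    (hG : ∀ (y : E) (e : Chart n X), At e (p y) → ∃ h : Cm n → ℂ, AnalyticAt ℂ h (e (p y)) ∧
      (∃ᶠ z in 𝓝 (e (p y)), h z ≠ 0) ∧ ∀ᶠ y' in 𝓝 y, h (e (p y')) ≠ 0 → y' ∈ 𝒢) :
    ∃ M : Set (Cm q), IsMeagre M ∧ ∀ t ∉ M, ∀ y, F y = t → Reg (n := n) p F y →
      ∀ e : Chart n X, At e (p y) → ∃ h : Cm n → ℂ, AnalyticAt ℂ h (e (p y)) ∧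
        (∃ᶠ y' in 𝓝 y, F y' = t ∧ h (e (p y')) ≠ 0) ∧
        ∀ᶠ y' in 𝓝 y, h (e (p y')) ≠ 0 → y' ∈ 𝒢 := by
  have hsc : SigmaCompactSpace E := sigmaCompact hp
  -- local data
  have h1 : ∀ y : E, ∃ O ∈ 𝓝 y, ∃ (e : Chart n X) (U : Set (Cm n)) (f : Cm n → Cm q)
      (h : Cm n → ℂ), IsOpen O ∧ IsOpen U ∧ IsPreconnected U ∧ AnalyticOnNhd ℂ f U ∧
      AnalyticOnNhd ℂ h U ∧ (∃ z ∈ U, h z ≠ 0) ∧ ∀ y' ∈ O, At e (p y') ∧ e (p y') ∈ U ∧
      F y' = f (e (p y')) ∧ (h (e (p y')) ≠ 0 → y' ∈ 𝒢) := by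
    intro y
    set e : Chart n X := chartAt (Cm n) (p y) with he
    have heA : At e (p y) := at_chart (p y)
    obtain ⟨f, hf1, hf2⟩ := hF y e heA
    obtain ⟨h, hh1, hh2, hh3⟩ := hG y e heA
    obtain ⟨δ, hδ, h2⟩ := Metric.eventually_nhds_iff_ball.1
      (hf1.eventually_analyticAt.and hh1.eventually_analyticAt)
    have h3 : ∀ᶠ y' in 𝓝 y, e (p y') ∈ ball (e (p y)) δ := by
      rw [ev_iff' hp.cov heA (Q := fun z => z ∈ ball (e (p y)) δ)]
      exact ball_mem_nhds _ hδ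
    have h4 : ∀ᶠ y' in 𝓝 y, At e (p y') := by
      have h5 : ∀ᶠ y' in 𝓝 y, p y' ∈ e.source :=
        hp.cov.continuous.continuousAt.eventually (e.open_source.mem_nhds heA.2)
      exact h5.mono fun y' h6 => ⟨heA.1, h6⟩
    obtain ⟨O, hO1, hO2, hO3⟩ := _root_.eventually_nhds_iff.1 (((h4.and h3).and hf2).and hh3)
    refine ⟨O, hO2.mem_nhds hO3, e, ball (e (p y)) δ, f, h, hO2, isOpen_ball,
      (convex_ball _ _).isPreconnected, fun z hz => (h2 z hz).1, fun z hz => (h2 z hz).2, ?_,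
      fun y' hy' => ⟨(hO1 y' hy').1.1.1, (hO1 y' hy').1.1.2, (hO1 y' hy').1.2, (hO1 y' hy').2⟩⟩
    obtain ⟨z, hz1, hz2⟩ := (hh2.and_eventually (ball_mem_nhds _ hδ)).exists
    exact ⟨z, hz2, hz1⟩
  choose O hO e U f h h2 h3 h4 h5 h6 h7 h8 using h1
  obtain ⟨s, hs1, hs2⟩ := countable_cover_nhds_of_sigmaCompact hO
  refine ⟨⋃ y ∈ s, {t | ∃ z ∈ U y, Function.Surjective (fderiv ℂ (f y) z) ∧ f y z = t ∧
      ∀ᶠ z' in 𝓝 z, f y z' = t → h y z' = 0}, ?_, ?_⟩
  · exact isMeagre_biUnion hs1 fun y _ => meagre_local (h3 y) (h4 y) (h5 y) (h6 y) (h7 y)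
  intro t ht y hy hreg e' he'
  obtain ⟨y0, hy0, hy1⟩ := mem_iUnion₂.1 (show y ∈ ⋃ x ∈ s, O x by rw [hs2]; trivial)
  obtain ⟨k1, k2, k3, k4⟩ := h8 y0 y hy1
  have hev : ∀ᶠ y' in 𝓝 y, y' ∈ O y0 := (h2 y0).mem_nhds hy1
  have k5 : Function.Surjective (fderiv ℂ (f y0) (e y0 (p y))) :=
    hreg _ _ k1 (hev.mono fun y' hy' => (h8 y0 y' hy').2.2.1)
  have k6 : ∃ᶠ z' in 𝓝 (e y0 (p y)), f y0 z' = t ∧ h y0 z' ≠ 0 := by
    intro hcon
    refine ht (mem_iUnion₂.2 ⟨y0, hy0, e y0 (p y), k2, k5, ?_, ?_⟩)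
    · rw [← k3, hy]
    · exact hcon.mono fun z' hz' hz'' => by
        by_contra hne
        exact hz' ⟨hz'', hne⟩
  have k7 : ∃ᶠ y' in 𝓝 y, f y0 (e y0 (p y')) = t ∧ h y0 (e y0 (p y')) ≠ 0 := by
    rw [← map_ep' hp.cov k1] at k6
    exact k6
  -- change of chart
  have k8 : AnalyticAt ℂ (fun z => e y0 (e'.symm z)) (e' (p y)) := (transition he' k1).analyticAt
  have k9 : ∀ᶠ y' in 𝓝 y, e y0 (e'.symm (e' (p y'))) = e y0 (p y') := by
    have h5 : ∀ᶠ y' in 𝓝 y, p y' ∈ e'.source :=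
      hp.cov.continuous.continuousAt.eventually (e'.open_source.mem_nhds he'.2)
    filter_upwards [h5] with y' hy'
    rw [e'.left_inv hy']
  refine ⟨fun z => h y0 (e y0 (e'.symm z)), ?_, ?_, ?_⟩
  · refine AnalyticAt.fun_comp (g := h y0) ?_ k8
    rw [e'.left_inv he'.2]
    exact h6 y0 _ k2
  · refine (k7.and_eventually (k9.and hev)).mono fun y' hy' => ⟨?_, ?_⟩
    · rw [(h8 y0 y' hy'.2.2).2.2.1]
      exact hy'.1.1
    · show h y0 (e y0 (e'.symm (e' (p y')))) ≠ 0
      rw [hy'.2.1]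
      exact hy'.1.2
  · filter_upwards [k9, hev] with y' a1 a2 a3
    refine (h8 y0 y' a2).2.2.2 ?_
    rw [← a1]
    exact a3

theorem gf_generic [T2Space X] [CompactSpace X] [IsManifold 𝓘(ℂ, Cm n) ω X] [ConnectedSpace E]
    (hp : IsGalois Γ p) {q : ℕ} {F : E → Cm q} (hF : HolA n p F) {𝒢 : Set E}
    (hG : ∀ (y : E) (e : Chart n X), At e (p y) → ∃ h : Cm n → ℂ, AnalyticAt ℂ h (e (p y)) ∧
      (∃ᶠ z in 𝓝 (e (p y)), h z ≠ 0) ∧ ∀ᶠ y' in 𝓝 y, h (e (p y')) ≠ 0 → y' ∈ 𝒢) :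
    ∃ M : Set (Cm q), IsMeagre M ∧ ∀ t ∉ M, ∀ y, F y = t → Reg (n := n) p F y →
      ∀ e : Chart n X, At e (p y) → ∃ h : Cm n → ℂ, AnalyticAt ℂ h (e (p y)) ∧
        (∃ᶠ y' in 𝓝 y, F y' = t ∧ h (e (p y')) ≠ 0) ∧
        ∀ᶠ y' in 𝓝 y, h (e (p y')) ≠ 0 → y' ∈ 𝒢 := by
  have : Countable Γ := countable_grp n hp
  exact gf_generic_c hp hF hG

/-- corollary: density on the generic fibre -/
theorem gf_dense [T2Space X] [CompactSpace X] [IsManifold 𝓘(ℂ, Cm n) ω X] [ConnectedSpace E]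
    (hp : IsGalois Γ p) {q : ℕ} {F : E → Cm q} (hF : HolA n p F) {𝒢 : Set E}
    (hG : ∀ (y : E) (e : Chart n X), At e (p y) → ∃ h : Cm n → ℂ, AnalyticAt ℂ h (e (p y)) ∧
      (∃ᶠ z in 𝓝 (e (p y)), h z ≠ 0) ∧ ∀ᶠ y' in 𝓝 y, h (e (p y')) ≠ 0 → y' ∈ 𝒢) :
    ∃ M : Set (Cm q), IsMeagre M ∧ ∀ t ∉ M, ∀ y, F y = t → Reg (n := n) p F y →
      y ∈ closure (𝒢 ∩ F ⁻¹' {t}) := by
  obtain ⟨M, hM, h1⟩ := gf_generic hp hF hG
  refine ⟨M, hM, fun t ht y hy hreg => ?_⟩
  obtain ⟨h, -, h2, h3⟩ := h1 t ht y hy hreg _ (at_chart (n := n) (p y))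
  rw [mem_closure_iff_frequently]
  exact (h2.and_eventually h3).mono fun y' hy' => ⟨hy'.2 hy'.1.2, hy'.1.1⟩

end glob

end Vale.Agent.P284.H221
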