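import Vale.Agent.P272.K.Inv.Chart
import Mathlib.Analysis.Analytic.Uniqueness
import Mathlib.Analysis.Analytic.Inverse
import Mathlib.Analysis.Calculus.InverseFunctionTheorem.FDeriv
import Mathlib.Analysis.Calculus.FDeriv.Analytic

/-!
# P284 (helper221): the rank of a holomorphic map `ℂᴺ → X`

If the rank is `n = dim X` at one point, it is `n` at some point of every nonempty open set.
-/

open scoped Manifold ContDiff Topology
open Filter Set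

noncomputable section

namespace Vale.Agent.P284.H221

open Vale.Agent.P272.K

variable {N n : ℕ} {X : Type*} [TopologicalSpace X] [ChartedSpace (Cm n) X]

/-- the holomorphic map `Φ : ℂᴺ → X` has rank `n` at `ζ` -/
def RkAt (n : ℕ) {X : Type*} [TopologicalSpace X] [ChartedSpace (Cm n) X] (Φ : Cm N → X)
    (ζ : Cm N) : Prop :=
  ∃ e : Chart n X, At e (Φ ζ) ∧ Function.Surjective (fderiv ℂ (fun ξ => e (Φ ξ)) ζ)

/-- the minor of `fderiv g` along `ι` -/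
def mnr (g : Cm N → Cm n) (ι : Cm n →ₗ[ℂ] Cm N) (ξ : Cm N) : ℂ :=
  (Matrix.of fun i j : Fin n => fderiv ℂ g ξ (ι (Pi.single j 1)) i).det

lemma mnr_analytic {g : Cm N → Cm n} {ξ : Cm N} (hg : AnalyticAt ℂ g ξ) (ι : Cm n →ₗ[ℂ] Cm N) :
    AnalyticAt ℂ (mnr g ι) ξ := by
  have h1 : ∀ i j : Fin n, AnalyticAt ℂ (fun y => fderiv ℂ g y (ι (Pi.single j 1)) i) ξ := by
    intro i j
    have h2 : AnalyticAt ℂ (fun y => fderiv ℂ g y) ξ := hg.fderiv
    have h3 : AnalyticAt ℂ (fun y => fderiv ℂ g y (ι (Pi.single j 1))) ξ :=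
      ((ContinuousLinearMap.apply ℂ (Cm n) (ι (Pi.single j 1))).analyticAt _).comp h2
    exact ((ContinuousLinearMap.proj (R := ℂ) (φ := fun _ : Fin n => ℂ) i).analyticAt _).comp h3
  have h4 : mnr g ι = fun y => ∑ σ : Equiv.Perm (Fin n), ((Equiv.Perm.sign σ : ℤ) : ℂ) *
      ∏ i, fderiv ℂ g y (ι (Pi.single i 1)) (σ i) := by
    funext y
    rw [mnr, Matrix.det_apply']
    rfl
  rw [h4]
  refine Finset.analyticAt_fun_sum _ fun σ _ => ?_
  exact analyticAt_const.mul (Finset.analyticAt_fun_prod _ fun i _ => h1 _ _)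

lemma det_of_eq {L : Cm n →ₗ[ℂ] Cm n} :
    (Matrix.of fun i j : Fin n => L (Pi.single j 1) i).det = LinearMap.det L := by
  rw [← LinearMap.det_toLin' (Matrix.of fun i j : Fin n => L (Pi.single j 1) i)]
  congr 1
  refine LinearMap.pi_ext' fun j => ?_
  ext i
  simp [Matrix.toLin'_apply, Matrix.mulVec_single]

lemma surjective_of_mnr {g : Cm N → Cm n} {ι : Cm n →ₗ[ℂ] Cm N} {ξ : Cm N}
    (h : mnr g ι ξ ≠ 0) : Function.Surjective (fderiv ℂ g ξ) := by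
  have h1 : LinearMap.det ((fderiv ℂ g ξ : Cm N →ₗ[ℂ] Cm n) ∘ₗ ι) ≠ 0 := by
    rw [← det_of_eq]
    exact h
  have h2 : Function.Surjective ((fderiv ℂ g ξ : Cm N →ₗ[ℂ] Cm n) ∘ₗ ι) := by
    have := (LinearEquiv.ofIsUnitDet (f := ((fderiv ℂ g ξ : Cm N →ₗ[ℂ] Cm n) ∘ₗ ι))
      (v := Pi.basisFun ℂ (Fin n)) (v' := Pi.basisFun ℂ (Fin n))
      (by rw [LinearMap.det_toMatrix]; exact isUnit_iff_ne_zero.2 h1)).surjective
    exact this
  intro y
  obtain ⟨x, hx⟩ := h2 y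
  exact ⟨ι x, hx⟩

lemma exists_mnr {g : Cm N → Cm n} {ξ : Cm N} (h : Function.Surjective (fderiv ℂ g ξ)) :
    ∃ ι : Cm n →ₗ[ℂ] Cm N, mnr g ι ξ ≠ 0 := by
  obtain ⟨ι, hι⟩ := (fderiv ℂ g ξ : Cm N →ₗ[ℂ] Cm n).exists_rightInverse_of_surjective
    (LinearMap.range_eq_top.2 h)
  refine ⟨ι, ?_⟩
  have h1 : mnr g ι ξ = LinearMap.det ((fderiv ℂ g ξ : Cm N →ₗ[ℂ] Cm n) ∘ₗ ι) := by
    rw [← det_of_eq]
    rfl
  rw [h1, hι, LinearMap.det_id]
  exact one_ne_zero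

variable [IsManifold 𝓘(ℂ, Cm n) ω X]

lemma chart_comp_analytic {Φ : Cm N → X} (hΦ : ContMDiff 𝓘(ℂ, Cm N) 𝓘(ℂ, Cm n) ω Φ)
    {e : Chart n X} {ζ : Cm N} (h : At e (Φ ζ)) : AnalyticAt ℂ (fun ξ => e (Φ ξ)) ζ := by
  have h1 : ContMDiffAt 𝓘(ℂ, Cm N) 𝓘(ℂ, Cm n) ω (fun ξ => e (Φ ξ)) ζ :=
    ContMDiffAt.comp ζ (g := e) (chart_contMDiffAt h) hΦ.contMDiffAt
  exact (contMDiffAt_iff_contDiffAt.1 h1).analyticAt

/-- the derivative of a chart change is onto -/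
lemma transition_surjective {e e' : Chart n X} {x : X} (h : At e x) (h' : At e' x) :
    Function.Surjective (fderiv ℂ (fun z => e' (e.symm z)) (e x)) := by
  have h1 : (fun z => e' (e.symm (e (e'.symm z)))) =ᶠ[𝓝 (e' x)] fun z => z := by
    filter_upwards [h'.nhds_at h] with z hz
    rw [hz.2.2.left_inv, e'.right_inv hz.1]
  have h2 : fderiv ℂ (fun z => e' (e.symm (e (e'.symm z)))) (e' x) =
      ContinuousLinearMap.id ℂ (Cm n) := by
    rw [h1.fderiv_eq]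
    exact fderiv_id
  have h3 : e (e'.symm (e' x)) = e x := by rw [h'.left_inv]
  have h4 : fderiv ℂ (fun z => e' (e.symm (e (e'.symm z)))) (e' x) =
      (fderiv ℂ (fun z => e' (e.symm z)) (e x)).comp
        (fderiv ℂ (fun z => e (e'.symm z)) (e' x)) := by
    have := fderiv_comp (𝕜 := ℂ) (e' x) (g := fun z => e' (e.symm z))
      (f := fun z => e (e'.symm z))
      (by rw [h3]; exact transition_differentiableAt h h') (transition_differentiableAt h' h)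
    rw [h3] at this
    exact this
  intro y
  refine ⟨fderiv ℂ (fun z => e (e'.symm z)) (e' x) y, ?_⟩
  have h5 := congrArg (fun L : Cm n →L[ℂ] Cm n => L y) (h4.symm.trans h2)
  simpa using h5

lemma RkAt.surjective {Φ : Cm N → X} (hΦ : ContMDiff 𝓘(ℂ, Cm N) 𝓘(ℂ, Cm n) ω Φ) {ζ : Cm N}
    (h : RkAt n Φ ζ) {e' : Chart n X} (he' : At e' (Φ ζ)) :
    Function.Surjective (fderiv ℂ (fun ξ => e' (Φ ξ)) ζ) := by
  obtain ⟨e, he, hs⟩ := h
  have h1 : (fun ξ => e' (Φ ξ)) =ᶠ[𝓝 ζ] fun ξ => e' (e.symm (e (Φ ξ))) := by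
    filter_upwards [hΦ.continuous.continuousAt.eventually (e.open_source.mem_nhds he.2)] with ξ hξ
    rw [e.left_inv hξ]
  rw [h1.fderiv_eq]
  have h2 := fderiv_comp (𝕜 := ℂ) ζ (g := fun z => e' (e.symm z)) (f := fun ξ => e (Φ ξ))
    (transition_differentiableAt he he') (chart_comp_analytic hΦ he).differentiableAt
  have h3 : (fun ξ => e' (e.symm (e (Φ ξ)))) = (fun z => e' (e.symm z)) ∘ fun ξ => e (Φ ξ) := rfl
  rw [h3, h2]
  exact (transition_surjective he he').comp hs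

/-- **rank**: the points of rank `n` are dense -/
theorem exists_rkAt {Φ : Cm N → X} (hΦ : ContMDiff 𝓘(ℂ, Cm N) 𝓘(ℂ, Cm n) ω Φ)
    (h : ∃ ζ, RkAt n Φ ζ) {U : Set (Cm N)} (hU : IsOpen U) (hne : U.Nonempty) :
    ∃ ζ ∈ U, RkAt n Φ ζ := by
  by_contra hcon
  push Not at hcon
  set S : Set (Cm N) := {ζ | ∀ᶠ ξ in 𝓝 ζ, ¬ RkAt n Φ ξ} with hS
  have hSo : IsOpen S := by
    rw [isOpen_iff_eventually]
    intro ζ hζ
    exact eventually_eventually_nhds.2 hζ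
  have hUS : U ⊆ S := fun ζ hζ => by
    filter_upwards [hU.mem_nhds hζ] with ξ hξ using hcon ξ hξ
  have hSc : IsClosed S := by
    refine isClosed_of_closure_subset fun ζ hζ => ?_
    -- chart at `Φ ζ`
    set e := chartAt (Cm n) (Φ ζ) with he
    have hAt : At e (Φ ζ) := ⟨chart_mem_atlas _ _, mem_chart_source _ _⟩
    have h1 : ∀ᶠ ξ in 𝓝 ζ, Φ ξ ∈ e.source :=
      hΦ.continuous.continuousAt.eventually (e.open_source.mem_nhds hAt.2)
    obtain ⟨ε, hε, hball⟩ := Metric.eventually_nhds_iff_ball.1 h1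
    obtain ⟨ξ₀, hξ₀, hξS⟩ := Metric.mem_closure_iff.1 hζ ε hε
    have hξb : ξ₀ ∈ Metric.ball ζ ε := by rw [Metric.mem_ball, dist_comm]; exact hξS
    have hzero : ∀ ι : Cm n →ₗ[ℂ] Cm N, ∀ ξ ∈ Metric.ball ζ ε,
        mnr (fun ξ => e (Φ ξ)) ι ξ = 0 := by
      intro ι
      have ha : AnalyticOnNhd ℂ (mnr (fun ξ => e (Φ ξ)) ι) (Metric.ball ζ ε) := fun ξ hξ =>
        mnr_analytic (chart_comp_analytic hΦ ⟨hAt.1, hball ξ hξ⟩) ι
      have hz : mnr (fun ξ => e (Φ ξ)) ι =ᶠ[𝓝 ξ₀] 0 := by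
        filter_upwards [hξ₀, Metric.isOpen_ball.mem_nhds hξb] with ξ hξ hξ'
        by_contra hne'
        exact hξ ⟨e, ⟨hAt.1, hball ξ hξ'⟩, surjective_of_mnr hne'⟩
      exact fun ξ hξ => ha.eqOn_zero_of_preconnected_of_eventuallyEq_zero
        (convex_ball ζ ε).isPreconnected hξb hz hξ
    show ∀ᶠ ξ in 𝓝 ζ, ¬ RkAt n Φ ξ
    filter_upwards [Metric.ball_mem_nhds ζ hε] with ξ hξ hrk
    obtain ⟨ι, hι⟩ := exists_mnr (hrk.surjective hΦ ⟨hAt.1, hball ξ hξ⟩)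
    exact hι (hzero ι ξ hξ)
  have hclopen : IsClopen S := ⟨hSc, hSo⟩
  have huniv : S = univ := hclopen.eq_univ (hne.mono hUS)
  obtain ⟨ζ, hζ⟩ := h
  have : ζ ∈ S := huniv ▸ mem_univ ζ
  exact (this.self_of_nhds) hζ

/-- **rank**: points of rank `n` over every nonempty open set -/
theorem exists_rkAt_over {Φ : Cm N → X} (hΦ : ContMDiff 𝓘(ℂ, Cm N) 𝓘(ℂ, Cm n) ω Φ)
    (h : ∃ ζ, RkAt n Φ ζ) (hd : DenseRange Φ) {U : Set X} (hU : IsOpen U) (hne : U.Nonempty) :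
    ∃ ζ, Φ ζ ∈ U ∧ RkAt n Φ ζ := by
  obtain ⟨ζ, hζ⟩ := hd.exists_mem_open hU hne
  obtain ⟨ζ', h1, h2⟩ := exists_rkAt hΦ h (hU.preimage hΦ.continuous) ⟨ζ, hζ⟩
  exact ⟨ζ', h1, h2⟩

end Vale.Agent.P284.H221
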