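import Vale.Agent.P284.H221.SigS
import Mathlib.Topology.Homotopy.Lifting
import Mathlib.Analysis.Convex.Contractible

/-!
# P284 (helper221), module SIG: assembly
-/

open scoped Manifold ContDiff Topology ComplexOrder
open Filter Set

noncomputable section

namespace Vale.Agent.P284.H221

open Vale.Agent.P272.K Vale.Agent.P284.H573 Vale.Agent.P284.H553 Vale.Agent.P284.H998
  Vale.Agent.P284.H812 Vale.Agent.P284.H451

section lc

variable {R : ℕ} {H : Type} [NormedAddCommGroup H] [InnerProductSpace ℂ H]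

lemma det_fderiv_eq_mnr (α : Cm R → Cm R) (z : Cm R) :
    (fderiv ℂ α z).det = mnr α LinearMap.id z := by
  rw [← det_clm_eq]
  rfl

lemma det_fderiv_analytic {α : Cm R → Cm R} {a : Cm R} (h : AnalyticAt ℂ α a) :
    AnalyticAt ℂ (fun z => (fderiv ℂ α z).det) a := by
  have : (fun z => (fderiv ℂ α z).det) = mnr α LinearMap.id := by
    funext z; exact det_fderiv_eq_mnr α z
  rw [this]
  exact mnr_analytic h _

/-- the local form of a section with normal form -/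
def loc (m : ℕ) (γ : Cm R → H) (α : Cm R → Cm R) (z : Cm R) : H :=
  (fderiv ℂ α z).det ^ m • γ (α z)

lemma loc_analytic {m : ℕ} {γ : Cm R → H} {α : Cm R → Cm R} {a : Cm R} (hα : AnalyticAt ℂ α a)
    (hγ : AnalyticAt ℂ γ (α a)) : AnalyticAt ℂ (loc m γ α) a :=
  ((det_fderiv_analytic hα).pow m).smul (AnalyticAt.comp (g := γ) hγ hα)

lemma loc_ne_zero {m : ℕ} {γ : Cm R → H} {α : Cm R → Cm R} {a : Cm R}
    (hb : (fderiv ℂ α a).det ≠ 0) (hi : ImmAt γ (α a)) : loc m γ α a ≠ 0 :=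
  smul_ne_zero (pow_ne_zero _ hb) hi.1

lemma loc_imm {m : ℕ} {γ : Cm R → H} {α : Cm R → Cm R} {a : Cm R} (hα : AnalyticAt ℂ α a)
    (hγ : AnalyticAt ℂ γ (α a)) (hb : (fderiv ℂ α a).det ≠ 0) (hi : ImmAt γ (α a))
    (ξ : Cm R) (c : ℂ) (h : fderiv ℂ (loc m γ α) a ξ = c • loc m γ α a) : ξ = 0 := by
  set u : Cm R → ℂ := fun z => (fderiv ℂ α z).det ^ m with hu
  have hua : DifferentiableAt ℂ u a := ((det_fderiv_analytic hα).pow m).differentiableAt
  have hu0 : u a ≠ 0 := pow_ne_zero _ hb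
  have hga : DifferentiableAt ℂ (fun z => γ (α z)) a :=
    (AnalyticAt.comp (g := γ) hγ hα).differentiableAt
  have h1 : HasFDerivAt (loc m γ α) (u a • fderiv ℂ (fun z => γ (α z)) a +
      (fderiv ℂ u a).smulRight (γ (α a))) a := hua.hasFDerivAt.smul hga.hasFDerivAt
  have h2 : fderiv ℂ (fun z => γ (α z)) a = (fderiv ℂ γ (α a)).comp (fderiv ℂ α a) :=
    fderiv_comp a (g := γ) hγ.differentiableAt hα.differentiableAt
  have hl : loc m γ α a = u a • γ (α a) := rfl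
  rw [h1.fderiv, h2, hl] at h
  have h3 : u a • fderiv ℂ γ (α a) (fderiv ℂ α a ξ) + fderiv ℂ u a ξ • γ (α a) =
      c • u a • γ (α a) := by
    simpa using h
  have h4 : fderiv ℂ γ (α a) (fderiv ℂ α a ξ) =
      ((u a)⁻¹ * (c * u a - fderiv ℂ u a ξ)) • γ (α a) := by
    have h5 : u a • fderiv ℂ γ (α a) (fderiv ℂ α a ξ) =
        (c * u a - fderiv ℂ u a ξ) • γ (α a) := by
      rw [sub_smul, mul_smul, ← h3, add_sub_cancel_right]
    rw [mul_smul, ← h5, smul_smul, inv_mul_cancel₀ hu0, one_smul]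
  have h6 := hi.2 _ _ h4
  exact (bijective_of_det_ne_zero hb).1 (by rw [h6, map_zero])

end lc

/-- the value of a form with a normal form on the columns of a derivative -/
lemma nf_value {n R m : ℕ} {X E : Type} [TopologicalSpace X] [ChartedSpace (Cm n) X]
    [TopologicalSpace E] {p : E → X} {H : Type} [NormedAddCommGroup H] [InnerProductSpace ℂ H]
    {v : E → Chart n X → (Fin R → Cm n) → H} {y : E} {e : Chart n X} {b : Cm n → Cm R}
    {γ : Cm R → H} (h : IsNF m p v y e b γ) {k : Cm R → Cm n} {z : Cm R}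
    (hk : AnalyticAt ℂ k z) (hkz : k z = e (p y)) :
    v y e (fun i => fderiv ℂ k z (Pi.single i 1)) = loc m γ (fun z' => b (k z')) z := by
  rw [h.nf.self_of_nhds, loc, ← hkz]
  congr 2
  have h1 : fderiv ℂ (fun z' => b (k z')) z = (fderiv ℂ b (k z)).comp (fderiv ℂ k z) :=
    fderiv_comp z (g := b) (by rw [hkz]; exact h.ban.differentiableAt) hk.differentiableAt
  rw [h1, ← det_clm_eq]
  rfl

/-- **SIG**, assembly -/
theorem sigma_of (hNB : NoBranchStmt) (hZ : ZPStmt) (h1 : L1Stmt) (h2 : L2Stmt) : SigStmt := by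
  intro n N R m hR hm X _ _ _ _ _ ι _ P hD E _ p hp hps H _ _ _ v hv hgood
  obtain ⟨y', e, b, γ, hnf'⟩ := hgood
  -- good open set of `E`
  obtain ⟨UE, hUEsub, hUEo, hy'⟩ := eventually_nhds_iff.1 (nf_eventually hp.continuous hnf')
  have hpo : IsOpenMap p := hp.isLocalHomeomorph.isOpenMap
  obtain ⟨Φ, hΦ, ζ₀, hζU, hrk⟩ := hD (p '' UE) (hpo _ hUEo) ⟨p y', y', hy', rfl⟩
  obtain ⟨y₀, hy₀, hpy₀⟩ := hζU
  have hnf := hUEsub y₀ hy₀
  have hAt₀ : At e (Φ ζ₀) := by rw [← hpy₀]; exact hnf.mem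
  have hban₀ : AnalyticAt ℂ b (e (Φ ζ₀)) := by rw [← hpy₀]; exact hnf.ban
  have hbs₀ : Function.Surjective (fderiv ℂ b (e (Φ ζ₀))) := by rw [← hpy₀]; exact hnf.bsurj
  have hRn : R ≤ n := by
    have := LinearMap.finrank_le_finrank_of_surjective
      (f := (fderiv ℂ b (e (Φ ζ₀)) : Cm n →ₗ[ℂ] Cm R)) hbs₀
    simpa using this
  -- the slice
  have hg : AnalyticAt ℂ (fun ξ => e (Φ ξ)) ζ₀ := chart_comp_analytic hΦ hAt₀
  have hgs : Function.Surjective (fderiv ℂ (fun ξ => e (Φ ξ)) ζ₀) := hrk.surjective hΦ hAt₀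
  have hBd : fderiv ℂ (fun ξ => b (e (Φ ξ))) ζ₀ =
      (fderiv ℂ b (e (Φ ζ₀))).comp (fderiv ℂ (fun ξ => e (Φ ξ)) ζ₀) :=
    fderiv_comp ζ₀ (g := b) (f := fun ξ => e (Φ ξ)) hban₀.differentiableAt hg.differentiableAt
  have hBs : Function.Surjective (fderiv ℂ (fun ξ => b (e (Φ ξ))) ζ₀) := by
    rw [hBd]; exact hbs₀.comp hgs
  obtain ⟨ι₀, hι₀⟩ := (fderiv ℂ (fun ξ => b (e (Φ ξ))) ζ₀ : Cm N →ₗ[ℂ] Cm R
    ).exists_rightInverse_of_surjective (LinearMap.range_eq_top.2 hBs)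
  let ι₁ : Cm R →L[ℂ] Cm N := LinearMap.toContinuousLinearMap ι₀
  let A : Cm R → Cm N := fun z => ζ₀ + ι₁ z
  have hAa : ∀ z, AnalyticAt ℂ A z := fun z => analyticAt_const.add (ι₁.analyticAt z)
  have hAd : ∀ z, fderiv ℂ A z = ι₁ := fun z => by
    have : HasFDerivAt A ι₁ z := ι₁.hasFDerivAt.const_add ζ₀
    exact this.fderiv
  have hA0 : A 0 = ζ₀ := by simp [A]
  have hAc : Continuous A := continuous_const.add ι₁.continuous
  -- the lift
  obtain ⟨Φl, ⟨hΦl0, hpΦl⟩, -⟩ :=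
    hp.existsUnique_continuousMap_lifts ⟨Φ, hΦ.continuous⟩ ζ₀ y₀ hpy₀
  have hpΦl' : ∀ ζ, p (Φl ζ) = Φ ζ := fun ζ => congrFun hpΦl ζ
  let ψ : Cm R → E := fun z => Φl (A z)
  have hψc : Continuous ψ := Φl.continuous.comp hAc
  have hpψ : ∀ z, p (ψ z) = Φ (A z) := fun z => hpΦl' _
  have hψ0 : ψ 0 = y₀ := by show Φl (A 0) = y₀; rw [hA0, hΦl0]
  have hψh : ∀ (z : Cm R) (e : Chart n X), At e (p (ψ z)) →
      AnalyticAt ℂ (fun z' => e (p (ψ z'))) z := by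
    intro z e' he'
    rw [hpψ] at he'
    have h3 : (fun z' => e' (p (ψ z'))) = fun z' => e' (Φ (A z')) := by
      funext z'; rw [hpψ]
    rw [h3]
    exact AnalyticAt.comp (g := fun ξ => e' (Φ ξ)) (chart_comp_analytic hΦ he') (hAa z)
  obtain ⟨V, hVd, hV⟩ := h1 n R m X E p hp.continuous H v hv ψ hψc hψh
  -- the local map `β`
  let β : Cm R → Cm R := fun z => b (e (p (ψ z)))
  have hD : ∀ z, ψ z ∈ UE → IsNF m p v (ψ z) e b γ := fun z hz => hUEsub _ hz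
  have hβa : ∀ z, ψ z ∈ UE → AnalyticAt ℂ β z := fun z hz =>
    AnalyticAt.comp (g := b) (hD z hz).ban (hψh z e (hD z hz).mem)
  have hVβ : ∀ z, ψ z ∈ UE → V z = loc m γ β z := fun z hz => by
    rw [hV z e (hD z hz).mem]
    exact nf_value (hD z hz) (hψh z e (hD z hz).mem) rfl
  have hDo : IsOpen (ψ ⁻¹' UE) := hUEo.preimage hψc
  have h0D : ψ 0 ∈ UE := by rw [hψ0]; exact hy₀
  have hβ0 : fderiv ℂ β 0 = ContinuousLinearMap.id ℂ (Cm R) := by
    have h3 : β = fun z => b (e (Φ (A z))) := by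
      funext z; show b (e (p (ψ z))) = _; rw [hpψ]
    have h4 : fderiv ℂ (fun z => b (e (Φ (A z)))) 0 =
        (fderiv ℂ (fun ξ => b (e (Φ ξ))) (A 0)).comp (fderiv ℂ A 0) := by
      refine fderiv_comp 0 (g := fun ξ => b (e (Φ ξ))) (f := A) ?_ (hAa 0).differentiableAt
      rw [hA0]
      exact (AnalyticAt.comp (g := b) (f := fun ξ => e (Φ ξ)) hban₀ hg).differentiableAt
    rw [h3, h4, hA0, hAd]
    ext x i
    have := congrArg (fun L : Cm R →ₗ[ℂ] Cm R => L x i) hι₀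
    exact this
  have hβdet0 : (fderiv ℂ β 0).det ≠ 0 := by
    rw [hβ0]
    have : (ContinuousLinearMap.id ℂ (Cm R)).det = 1 := LinearMap.det_id
    rw [this]
    exact one_ne_zero
  let U₀ : Set (Cm R) := {z | ψ z ∈ UE ∧ (fderiv ℂ β z).det ≠ 0}
  have hU₀ : U₀ ∈ 𝓝 (0 : Cm R) :=
    inter_mem (hDo.mem_nhds h0D)
      ((det_fderiv_analytic (hβa 0 h0D)).continuousAt.eventually_ne hβdet0)
  have hT : β '' U₀ ∈ 𝓝 (β 0) :=
    image_mem_nhds (hβa 0 h0D) (bijective_of_det_ne_zero hβdet0) hU₀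
  have hβ00 : β 0 = b (e (Φ ζ₀)) := by
    show b (e (p (ψ 0))) = _; rw [hψ0, hpy₀]
  -- the transversal manifold
  let W : Set X := {x | x ∈ p '' UE ∧ x ∈ e.source ∧ b (e x) ∈ β '' U₀}
  have hW : W ∈ 𝓝 (Φ ζ₀) := by
    have h3 : ∀ᶠ x in 𝓝 (Φ ζ₀), x ∈ p '' UE := (hpo _ hUEo).mem_nhds ⟨y₀, hy₀, hpy₀⟩
    have h4 : ∀ᶠ x in 𝓝 (Φ ζ₀), x ∈ e.source := e.open_source.mem_nhds hAt₀.2
    have h5 : ∀ᶠ x in 𝓝 (Φ ζ₀), b (e x) ∈ β '' U₀ := by
      have h6 : ContinuousAt (fun x => b (e x)) (Φ ζ₀) :=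
        ContinuousAt.comp (g := b) hban₀.continuousAt (e.continuousAt hAt₀.2)
      refine h6.eventually ?_
      show ∀ᶠ y in 𝓝 (b (e (Φ ζ₀))), y ∈ β '' U₀
      rw [← hβ00]
      exact hT
    filter_upwards [h3, h4, h5] with x a1 a2 a3 using ⟨a1, a2, a3⟩
  obtain ⟨Z, _, _, _, _, _, _, j, hj, w, hw, hwpos, z₁, c, hc, hjW, hejz, hαa, hαb⟩ :=
    hZ n R hR hRn X ι P e (Φ ζ₀) hAt₀ W hW b hban₀ hbs₀
  obtain ⟨N', hN', hNv⟩ := h2 n R m X E p hp hps H v hv Z j hj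
  let α : Cm R → Cm R := fun z => b (e (j (c.symm z)))
  have hcz : c.symm (c z₁) = z₁ := c.left_inv hc.2
  have hαc : α (c z₁) = b (e (j z₁)) := by show b (e (j (c.symm (c z₁)))) = _; rw [hcz]
  have hαdet : (fderiv ℂ α (c z₁)).det ≠ 0 := det_ne_zero_of_bijective hαb
  obtain ⟨⟨y₁, hy₁, hpy₁⟩, -, ζ', hζ', hβζ'⟩ := hjW
  have hnf₁ := hUEsub y₁ hy₁
  have himm₁ : ImmAt γ (α (c z₁)) := by rw [hαc, ← hpy₁]; exact hnf₁.imm
  have hγ₁ : AnalyticAt ℂ γ (α (c z₁)) := by rw [hαc, ← hpy₁]; exact hnf₁.γan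
  -- the weight near `z₁`
  have hNα : ∀ᶠ z in 𝓝 (c z₁), N' c z = ‖loc m γ α z‖ ^ 2 := by
    have hct : Tendsto c.symm (𝓝 (c z₁)) (𝓝 z₁) := by
      have := (c.continuousAt_symm (c.map_source hc.2)).tendsto
      rwa [hcz] at this
    have h3 : ∀ᶠ z in 𝓝 (c z₁), z ∈ c.target := c.open_target.mem_nhds (c.map_source hc.2)
    have h4 : ∀ᶠ z in 𝓝 (c z₁), j (c.symm z) ∈ p '' UE := by
      have h5 : Tendsto (fun z => j (c.symm z)) (𝓝 (c z₁)) (𝓝 (j z₁)) :=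
        hj.continuous.continuousAt.tendsto.comp hct
      exact h5.eventually ((hpo _ hUEo).mem_nhds ⟨y₁, hy₁, hpy₁⟩)
    filter_upwards [h3, h4] with z hz hz4
    obtain ⟨y, hy, hpy⟩ := hz4
    have hnfy := hUEsub y hy
    have hcz' : c (c.symm z) = z := c.right_inv hz
    have hAtc : At c (c.symm z) := ⟨hc.1, c.map_target hz⟩
    have hAte : At e (j (c.symm z)) := by rw [← hpy]; exact hnfy.mem
    have h6 := hNv c (c.symm z) e y hAtc hAte hpy
    rw [hcz'] at h6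
    rw [h6]
    have hk : AnalyticAt ℂ (fun z' => e (j (c.symm z'))) z := by
      have h7 : ContMDiffAt 𝓘(ℂ, Cm R) 𝓘(ℂ, Cm n) ω (fun z' => e (j (c.symm z'))) z := by
        have h8 := chart_symm_contMDiffAt hc.1 hz
        have h9 : ContMDiffAt 𝓘(ℂ, Cm R) 𝓘(ℂ, Cm n) ω (fun z' => j (c.symm z')) z :=
          ContMDiffAt.comp z (g := j) hj.contMDiffAt h8
        exact ContMDiffAt.comp z (g := e) (chart_contMDiffAt hAte) h9
      exact (contMDiffAt_iff_contDiffAt.1 h7).analyticAt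
    rw [nf_value hnfy hk (by rw [hpy])]
  have hHI : HImmAt R Z H N' := by
    refine ⟨c, z₁, hc, ?_, loc m γ α, loc_analytic hαa hγ₁, hNα, fun ξ d hξ => ?_⟩
    · rw [hNα.self_of_nhds]
      exact pow_ne_zero 2 (norm_ne_zero_iff.2 (loc_ne_zero hαdet himm₁))
    · exact loc_imm hαa hγ₁ hαdet himm₁ ξ d hξ
  -- the branch
  have hζD : ψ ζ' ∈ UE := hζ'.1
  have hβζ'' : β ζ' = α (c z₁) := by rw [hαc]; exact hβζ'
  obtain ⟨f, hfa, hfζ, hf⟩ := exists_branch hαa hαb (hβa ζ' hζD) hβζ''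
  have hbr : IsBranch m N' V ζ' c f := by
    refine ⟨hc.1, ?_, hfa, ?_⟩
    · rw [hfζ]; exact c.map_source hc.2
    · have hft : Tendsto f (𝓝 ζ') (𝓝 (c z₁)) := by
        have := hfa.continuousAt.tendsto
        rwa [hfζ] at this
      have h3 : ∀ᶠ z in 𝓝 ζ', ψ z ∈ UE := hDo.mem_nhds hζD
      filter_upwards [h3, hft.eventually hNα, eventually_eventually_nhds.2 hf,
        hfa.eventually_analyticAt, hft.eventually hαa.eventually_analyticAt] with z a1 a2 a3 a4 a5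
      have h4 := det_chain a4.differentiableAt a5.differentiableAt a3
      have h5 : α (f z) = β z := a3.self_of_nhds
      rw [a2, hVβ z a1, loc, loc, ← h4, h5, norm_smul, norm_smul, norm_pow, norm_pow, norm_mul]
      ring
  have hVev : V =ᶠ[𝓝 ζ'] loc m γ β := by
    filter_upwards [hDo.mem_nhds hζD] with z hz using hVβ z hz
  have himmζ : ImmAt γ (β ζ') := by rw [hβζ'']; exact himm₁
  have hγζ : AnalyticAt ℂ γ (β ζ') := by rw [hβζ'']; exact hγ₁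
  refine hNB R m hR hm Z w hw hwpos H N' hN' hHI H V hVd ζ' c f hbr ?_ ?_
  · rw [hVβ ζ' hζD]
    exact loc_ne_zero hζ'.2 himmζ
  · intro ξ d hξ
    rw [hVev.fderiv_eq, hVβ ζ' hζD] at hξ
    exact loc_imm (hβa ζ' hζD) hγζ hζ'.2 himmζ ξ d hξ

end Vale.Agent.P284.H221
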