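import Vale.Agent.P284.H221.GF
import Vale.Agent.P284.H378.CS

/-!
# P284 (helper221): `GFStmt` of H378/CS.lean
-/

open scoped Manifold ContDiff Topology
open Filter Set Metric

namespace Vale.Agent.P284.H221

/-- **GF**: the complement of the good set is thin in the generic fibre. -/
theorem gfStmt : H378.GFStmt := by
  intro n q X _ _ _ _ _ E Γ _ _ _ _ p hp w F c hF _ _ 𝒢 hG _
  obtain ⟨B, hB⟩ := hF
  obtain ⟨M, hM, h⟩ := gf_generic hp (holA_of hB) hG.thin
  exact ⟨M, hM, fun t ht hreg y e hy he => h t ht y hy (hreg y hy) e he⟩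

end Vale.Agent.P284.H221
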