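import Vale.Agent.P284.H221.Sig
import Vale.Agent.P284.H573.L12
import Vale.Agent.P284.H553.Seg2
import Vale.Agent.P284.H812.KO
import Vale.Agent.P284.H451.KL
import Vale.Agent.P284.H998.Z6

/-!
# P284 (helper221), module SIG: the statement from KL and Z
-/

open scoped Manifold ContDiff Topology
open Filter

noncomputable section

namespace Vale.Agent.P284.H221

open Vale.Agent.P272.K Vale.Agent.P284.H573 Vale.Agent.P284.H553 Vale.Agent.P284.H998
  Vale.Agent.P284.H812 Vale.Agent.P284.H451

/-- **SIG** from the Kodaira lemma KL and module Z. -/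
theorem sig_of_kl_z (hKL : KLStmt) (hZ : ZStmt) : SigStmt :=
  sigma_of (noBranch hKL koStmt) hZ l1Stmt l2Stmt

/-- **SIG** from module Z. -/
theorem sig_of_z (hZ : ZStmt) : SigStmt := sig_of_kl_z klStmt hZ

/-- **SIG**: a projective manifold with a Hilbert space valued natural form of full rank on a covering
is not dominated by `ℂᴺ`. -/
theorem sigStmt : SigStmt := sig_of_z zStmt

end Vale.Agent.P284.H221
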