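import Vale.Agent.P268.Hol
import Mathlib.Analysis.Complex.RemovableSingularity
import Mathlib.Analysis.InnerProductSpace.Basic

/-!
# P284 (helper221), piece (C7), second part: extension of Hilbert space valued holomorphic functions over
an analytic set

`u` is holomorphic off `{ω = 0}` with values in a Hilbert space `W`, in the closed span of `D ⊆ W`, and
for `d ∈ D` the differential of `⟪d, u⟫` is locally bounded near the points of `{ω = 0}`; then `u`
extends. The functions are not assumed to be locally bounded.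
-/

open scoped Topology
open Filter Set Metric

noncomputable section

namespace Vale.Agent.P284.H221

/-- a function with bounded derivative on a punctured disc is bounded -/
lemma bdd_of_deriv_bdd {h : ℂ → ℂ} {t₁ : ℂ} {δ M : ℝ} (hδ : 0 < δ)
    (hd : ∀ t ∈ closedBall t₁ δ, t ≠ t₁ → DifferentiableAt ℂ h t)
    (hM : ∀ t ∈ closedBall t₁ δ, t ≠ t₁ → ‖deriv h t‖ ≤ M) :
    ∃ B : ℝ, ∀ t ∈ closedBall t₁ δ, t ≠ t₁ → ‖h t‖ ≤ B := by
  have hM0 : 0 ≤ M := by
    have h1 : (t₁ + δ : ℂ) ∈ closedBall t₁ δ := by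
      rw [mem_closedBall, dist_eq_norm, add_sub_cancel_left, Complex.norm_real, Real.norm_eq_abs,
        abs_of_pos hδ]
    have h2 : (t₁ + δ : ℂ) ≠ t₁ := by
      intro h3
      have h4 : (δ : ℂ) = 0 := by simpa using h3
      exact hδ.ne' (by exact_mod_cast h4)
    exact (norm_nonneg _).trans (hM _ h1 h2)
  have hsph : ∀ t ∈ sphere t₁ δ, t ∈ closedBall t₁ δ ∧ t ≠ t₁ := fun t ht => by
    refine ⟨sphere_subset_closedBall ht, ?_⟩
    rintro rfl
    rw [mem_sphere, dist_self] at ht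
    exact hδ.ne ht
  have hc : ContinuousOn h (sphere t₁ δ) := fun t ht =>
    (hd t (hsph t ht).1 (hsph t ht).2).continuousAt.continuousWithinAt
  obtain ⟨B₀, hB₀⟩ := (isCompact_sphere t₁ δ).exists_bound_of_continuousOn hc
  refine ⟨B₀ + M * δ, fun t ht hne => ?_⟩
  set σ₀ : ℝ := ‖t - t₁‖ with hσ₀
  have hσpos : 0 < σ₀ := norm_pos_iff.2 (sub_ne_zero.2 hne)
  have hσδ : σ₀ ≤ δ := by rwa [mem_closedBall, dist_eq_norm] at ht
  set w : ℂ := (t - t₁) / σ₀ with hw
  have hwn : ‖w‖ = 1 := by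
    rw [hw, norm_div, Complex.norm_real, Real.norm_eq_abs, abs_of_pos hσpos, ← hσ₀,
      div_self hσpos.ne']
  let φ : ℝ → ℂ := fun σ => h (t₁ + σ * w)
  have hmem : ∀ σ ∈ Icc σ₀ δ, (t₁ + σ * w) ∈ closedBall t₁ δ ∧ (t₁ + σ * w) ≠ t₁ := by
    intro σ hσ
    have h0 : 0 < σ := hσpos.trans_le hσ.1
    have h1 : ‖(σ : ℂ) * w‖ = σ := by
      rw [norm_mul, hwn, mul_one, Complex.norm_real, Real.norm_eq_abs, abs_of_pos h0]
    refine ⟨?_, ?_⟩
    · rw [mem_closedBall, dist_eq_norm, add_sub_cancel_left, h1]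
      exact hσ.2
    · intro h2
      have h3 : (σ : ℂ) * w = 0 := by simpa using h2
      rw [h3, norm_zero] at h1
      exact h0.ne h1
  have hφ : ∀ σ ∈ Icc σ₀ δ, HasDerivWithinAt φ (deriv h (t₁ + σ * w) * w) (Icc σ₀ δ) σ := by
    intro σ hσ
    have h1 : HasDerivAt h (deriv h (t₁ + σ * w)) (t₁ + σ * w) :=
      (hd _ (hmem σ hσ).1 (hmem σ hσ).2).hasDerivAt
    have h2 : HasDerivAt (fun σ : ℝ => t₁ + (σ : ℂ) * w) w σ := by
      have h3 := ((Complex.ofRealCLM.hasDerivAt (x := σ)).mul_const w).const_add t₁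
      simpa using h3
    have h3 := h1.comp_hasFDerivAt σ h2.hasFDerivAt
    have h4 : HasDerivAt φ (deriv h (t₁ + σ * w) * w) σ := by
      have h5 := HasDerivAt.scomp σ h1 h2
      have h6 : w • deriv h (t₁ + σ * w) = deriv h (t₁ + σ * w) * w := by
        rw [smul_eq_mul, mul_comm]
      rw [h6] at h5
      exact h5
    exact h4.hasDerivWithinAt
  have key : ‖φ δ - φ σ₀‖ ≤ M * ‖δ - σ₀‖ := by
    refine Convex.norm_image_sub_le_of_norm_hasDerivWithin_le hφ ?_ (convex_Icc _ _)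
      (left_mem_Icc.2 hσδ) (right_mem_Icc.2 hσδ)
    intro σ hσ
    rw [norm_mul, hwn, mul_one]
    exact hM _ (hmem σ hσ).1 (hmem σ hσ).2
  have h1 : φ σ₀ = h t := by
    show h (t₁ + σ₀ * w) = h t
    congr 1
    rw [hw, mul_div_cancel₀]
    · ring
    · exact_mod_cast hσpos.ne'
  have h2 : ‖φ δ‖ ≤ B₀ := by
    refine hB₀ _ ?_
    rw [mem_sphere, dist_eq_norm, add_sub_cancel_left, norm_mul, hwn, mul_one, Complex.norm_real,
      Real.norm_eq_abs, abs_of_pos hδ]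
  have h3 : ‖δ - σ₀‖ ≤ δ := by
    rw [Real.norm_eq_abs, abs_of_nonneg (by linarith)]
    linarith
  calc ‖h t‖ = ‖φ δ - (φ δ - φ σ₀)‖ := by rw [← h1]; congr 1; ring
    _ ≤ ‖φ δ‖ + ‖φ δ - φ σ₀‖ := norm_sub_le _ _
    _ ≤ B₀ + M * δ := by
      refine add_le_add h2 (key.trans ?_)
      gcongr

/-- one variable: `h` is holomorphic off the isolated zeros of `k` with locally bounded derivative;
Cauchy formula at a nonzero point of `k` -/
lemma cauchy_of_deriv_bdd {h k : ℂ → ℂ} {s s' : ℝ} (hs : 0 < s) (hss' : s < s')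
    (hk : DifferentiableOn ℂ k (ball 0 s')) (hk0 : k 0 ≠ 0)
    (hks : ∀ t ∈ sphere (0 : ℂ) s, k t ≠ 0)
    (hh : ∀ t ∈ ball (0 : ℂ) s', k t ≠ 0 → DifferentiableAt ℂ h t)
    (hb : ∀ t ∈ ball (0 : ℂ) s', ∃ C : ℝ, ∀ᶠ τ in 𝓝[≠] t, k τ ≠ 0 → ‖deriv h τ‖ ≤ C) :
    (∮ t in C(0, s), t⁻¹ • h t) = (2 * Real.pi * Complex.I : ℂ) • h 0 := by
  have hs' : 0 < s' := hs.trans hss'
  have h0s : (0 : ℂ) ∈ ball (0 : ℂ) s' := mem_ball_self hs'
  have han : AnalyticOnNhd ℂ k (ball 0 s') := hk.analyticOnNhd isOpen_ball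
  -- zeros of `k` are isolated
  have hiso : ∀ t ∈ ball (0 : ℂ) s', ∀ᶠ τ in 𝓝[≠] t, k τ ≠ 0 := by
    intro t ht
    rcases (han t ht).eventually_eq_zero_or_eventually_ne_zero with h1 | h1
    · exfalso
      have h2 := han.eqOn_zero_of_preconnected_of_eventuallyEq_zero
        (convex_ball _ _).isPreconnected ht h1
      exact hk0 (h2 h0s)
    · exact h1
  have hball : ∀ t ∈ ball (0 : ℂ) s', ∀ᶠ τ in 𝓝[≠] t, τ ∈ ball (0 : ℂ) s' := fun t ht =>
    mem_nhdsWithin_of_mem_nhds (isOpen_ball.mem_nhds ht)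
  let f : ℂ → ℂ := fun t => limUnder (𝓝[≠] t) h
  have htend : ∀ t ∈ ball (0 : ℂ) s', Tendsto h (𝓝[≠] t) (𝓝 (f t)) := by
    intro t ht
    obtain ⟨C, hC⟩ := hb t ht
    have h1 : ∀ᶠ τ in 𝓝[≠] t, DifferentiableAt ℂ h τ ∧ ‖deriv h τ‖ ≤ C := by
      filter_upwards [hiso t ht, hball t ht, hC] with τ h2 h3 h4 using ⟨hh τ h3 h2, h4 h2⟩
    rw [eventually_nhdsWithin_iff, Metric.eventually_nhds_iff_ball] at h1
    obtain ⟨δ, hδ, h2⟩ := h1
    obtain ⟨B, hB⟩ := bdd_of_deriv_bdd (h := h) (t₁ := t) (δ := δ / 2) (M := C) (by positivity)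
      (fun τ hτ hne => (h2 τ (closedBall_subset_ball (by linarith) hτ) hne).1)
      (fun τ hτ hne => (h2 τ (closedBall_subset_ball (by linarith) hτ) hne).2)
    have hnear : ∀ᶠ τ in 𝓝[≠] t, τ ∈ ball t (δ / 2) ∧ τ ≠ t := by
      filter_upwards [mem_nhdsWithin_of_mem_nhds (isOpen_ball.mem_nhds
        (mem_ball_self (x := t) (by positivity : (0 : ℝ) < δ / 2))), self_mem_nhdsWithin]
        with τ h3 h4 using ⟨h3, h4⟩
    refine Complex.tendsto_limUnder_of_differentiable_on_punctured_nhds_of_bounded_under ?_ ?_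
    · filter_upwards [hnear] with τ hτ
      exact (h2 τ (ball_subset_ball (by linarith) hτ.1) hτ.2).1
    · refine ⟨B + ‖h t‖, ?_⟩
      rw [eventually_map]
      filter_upwards [hnear] with τ hτ
      exact (norm_sub_le _ _).trans (add_le_add (hB τ (ball_subset_closedBall hτ.1) hτ.2) le_rfl)
  have hfh : ∀ t ∈ ball (0 : ℂ) s', k t ≠ 0 → f t = h t := by
    intro t ht hkt
    have h1 : Tendsto h (𝓝[≠] t) (𝓝 (h t)) :=
      (hh t ht hkt).continuousAt.tendsto.mono_left nhdsWithin_le_nhds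
    exact tendsto_nhds_unique (htend t ht) h1
  have hfan : DifferentiableOn ℂ f (ball 0 s') := by
    intro t ht
    have h1 : ∀ᶠ τ in 𝓝[≠] t, f τ = h τ := by
      filter_upwards [hiso t ht, hball t ht] with τ h2 h3 using hfh τ h3 h2
    have h2 : ∀ᶠ τ in 𝓝[≠] t, DifferentiableAt ℂ f τ := by
      have h3 : ∀ᶠ τ in 𝓝[≠] t, ∀ᶠ τ' in 𝓝 τ, τ' ∈ ball (0 : ℂ) s' ∧ k τ' ≠ 0 := by
        filter_upwards [hiso t ht, hball t ht] with τ h4 h5
        filter_upwards [isOpen_ball.mem_nhds h5,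
          (han τ h5).continuousAt.eventually_ne h4] with τ' h6 h7 using ⟨h6, h7⟩
      filter_upwards [h3] with τ h4
      have h5 : f =ᶠ[𝓝 τ] h := h4.mono fun τ' h6 => hfh τ' h6.1 h6.2
      have h6 := h4.self_of_nhds
      exact (hh τ h6.1 h6.2).congr_of_eventuallyEq h5
    have h3 : ContinuousAt f t := by
      rw [continuousAt_iff_punctured_nhds]
      exact (htend t ht).congr' (h1.mono fun τ h4 => h4.symm)
    exact (Complex.analyticAt_of_differentiable_on_punctured_nhds_of_continuousAt h2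
      h3).differentiableAt.differentiableWithinAt
  have hsub : closedBall (0 : ℂ) s ⊆ ball 0 s' := closedBall_subset_ball hss'
  have h1 := (hfan.mono hsub).circleIntegral_sub_inv_smul (mem_ball_self hs)
  rw [hfh 0 h0s hk0] at h1
  rw [← h1]
  refine circleIntegral.integral_congr hs.le fun t ht => ?_
  show t⁻¹ • h t = (t - 0)⁻¹ • f t
  rw [sub_zero, hfh t (hsub (sphere_subset_closedBall ht)) (hks t ht)]

/-- **Extension over an analytic set.** -/
theorem ext_over {P W : Type*} [NormedAddCommGroup P] [NormedSpace ℂ P] [FiniteDimensional ℂ P]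
    [NormedAddCommGroup W] [InnerProductSpace ℂ W] [CompleteSpace W]
    {ω : P → ℂ} {u : P → W} {x₀ : P} {r : ℝ} (hr : 0 < r)
    (hω : DifferentiableOn ℂ ω (ball x₀ r)) (hne : ∃ᶠ z in 𝓝 x₀, ω z ≠ 0)
    (hu : ∀ z ∈ ball x₀ r, ω z ≠ 0 → DifferentiableAt ℂ u z) {D : Set W}
    (hcl : ∀ a : W, (∀ d ∈ D, inner ℂ a d = 0) → ∀ z ∈ ball x₀ r, ω z ≠ 0 → inner ℂ a (u z) = 0)
    (hD : ∀ d ∈ D, ∀ z ∈ ball x₀ r, ∃ C : ℝ, ∀ᶠ z' in 𝓝 z, ω z' ≠ 0 →
      ‖fderiv ℂ (fun z => inner ℂ d (u z)) z'‖ ≤ C) :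
    ∃ ρ > 0, ρ ≤ r ∧ ∃ ψ : P → W, DifferentiableOn ℂ ψ (ball x₀ ρ) ∧
      ∀ z ∈ ball x₀ ρ, ω z ≠ 0 → u z = ψ z := by
  -- a direction
  obtain ⟨v, hv⟩ : ∃ v : P, ∀ᶠ τ in 𝓝[≠] (0 : ℂ), ω (x₀ + τ • v) ≠ 0 := by
    obtain ⟨z₁, hz₁, hz₁'⟩ := (hne.and_eventually (isOpen_ball.mem_nhds (mem_ball_self hr))).exists
    refine ⟨z₁ - x₀, ?_⟩
    have hconv : Convex ℝ {τ : ℂ | x₀ + τ • (z₁ - x₀) ∈ ball x₀ r} := by
      intro a ha b hb α β hα hβ hαβ
      have h1 := (convex_ball x₀ r) ha hb hα hβ hαβ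
      show x₀ + (α • a + β • b) • (z₁ - x₀) ∈ ball x₀ r
      have h2 : x₀ + (α • a + β • b) • (z₁ - x₀) =
          α • (x₀ + a • (z₁ - x₀)) + β • (x₀ + b • (z₁ - x₀)) := by
        calc x₀ + (α • a + β • b) • (z₁ - x₀)
            = (α + β) • x₀ + (α • a + β • b) • (z₁ - x₀) := by rw [hαβ, one_smul]
          _ = α • (x₀ + a • (z₁ - x₀)) + β • (x₀ + b • (z₁ - x₀)) := by
            rw [smul_add, smul_add, add_smul, add_smul, smul_assoc, smul_assoc]
            abel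
      rw [h2]
      exact h1
    have hopen : IsOpen {τ : ℂ | x₀ + τ • (z₁ - x₀) ∈ ball x₀ r} :=
      isOpen_ball.preimage (by fun_prop : Continuous fun τ : ℂ => x₀ + τ • (z₁ - x₀))
    have hk : DifferentiableOn ℂ (fun τ : ℂ => ω (x₀ + τ • (z₁ - x₀)))
        {τ : ℂ | x₀ + τ • (z₁ - x₀) ∈ ball x₀ r} :=
      hω.comp (by fun_prop) fun τ hτ => hτ
    have han := hk.analyticOnNhd hopen
    have h0 : (0 : ℂ) ∈ {τ : ℂ | x₀ + τ • (z₁ - x₀) ∈ ball x₀ r} := by
      show x₀ + (0 : ℂ) • (z₁ - x₀) ∈ ball x₀ r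
      rw [zero_smul, add_zero]; exact mem_ball_self hr
    have h1 : (1 : ℂ) ∈ {τ : ℂ | x₀ + τ • (z₁ - x₀) ∈ ball x₀ r} := by
      show x₀ + (1 : ℂ) • (z₁ - x₀) ∈ ball x₀ r
      rw [one_smul, add_sub_cancel]; exact hz₁'
    rcases (han 0 h0).eventually_eq_zero_or_eventually_ne_zero with h2 | h2
    · exfalso
      have h3 := han.eqOn_zero_of_preconnected_of_eventuallyEq_zero hconv.isPreconnected h0 h2
      have h4 : ω (x₀ + (1 : ℂ) • (z₁ - x₀)) = 0 := h3 h1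
      rw [one_smul, add_sub_cancel] at h4
      exact hz₁ h4
    · exact h2
  -- a circle without zeros
  obtain ⟨s, hs, hsr, hcirc⟩ : ∃ s : ℝ, 0 < s ∧ s * ‖v‖ < r ∧
      ∀ t : ℂ, ‖t‖ = s → ω (x₀ + t • v) ≠ 0 := by
    rw [eventually_nhdsWithin_iff, Metric.eventually_nhds_iff_ball] at hv
    obtain ⟨δ, hδ, h⟩ := hv
    have hu1 : 0 < ‖v‖ + 1 := by positivity
    refine ⟨min (δ / 2) (r / (‖v‖ + 1) / 2), by positivity, ?_, ?_⟩
    · calc min (δ / 2) (r / (‖v‖ + 1) / 2) * ‖v‖ ≤ (r / (‖v‖ + 1) / 2) * ‖v‖ := by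
            gcongr; exact min_le_right _ _
        _ ≤ (r / (‖v‖ + 1) / 2) * (‖v‖ + 1) := by gcongr; linarith
        _ = r / 2 := by field_simp
        _ < r := by linarith
    · intro t ht
      apply h t
      · rw [mem_ball_zero_iff, ht]
        exact (min_le_left _ _).trans_lt (by linarith)
      · rw [Set.mem_compl_iff, Set.mem_singleton_iff]
        intro h4
        rw [h4, norm_zero] at ht
        have : (0 : ℝ) < min (δ / 2) (r / (‖v‖ + 1) / 2) := by positivity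
        linarith
  have hOo : IsOpen (ball x₀ r ∩ {z | ω z ≠ 0}) := by
    have : ball x₀ r ∩ {z | ω z ≠ 0} = ball x₀ r ∩ ω ⁻¹' {0}ᶜ := by
      ext z; simp
    rw [this]
    exact hω.continuousOn.isOpen_inter_preimage isOpen_ball isOpen_compl_singleton
  have hΨc : Continuous (fun q : P × ℂ => q.1 + q.2 • v) := by fun_prop
  have htube : ({x₀} : Set P) ×ˢ sphere (0 : ℂ) s ⊆
      (fun q : P × ℂ => q.1 + q.2 • v) ⁻¹' (ball x₀ r ∩ {z | ω z ≠ 0}) := by
    rintro ⟨z, t⟩ ⟨hz, ht⟩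
    rw [Set.mem_singleton_iff] at hz
    rw [mem_sphere_zero_iff_norm] at ht
    subst hz
    refine ⟨?_, hcirc t ht⟩
    rw [mem_ball, dist_eq_norm, add_sub_cancel_left, norm_smul, ht]
    exact hsr
  obtain ⟨A, T, hA, hT, hpA, hsT, hAT⟩ := generalized_tube_lemma isCompact_singleton
    (isCompact_sphere (0 : ℂ) s) (hOo.preimage hΨc) htube
  obtain ⟨ρ₁, hρ₁, hρA⟩ := Metric.isOpen_iff.1 hA x₀ (hpA rfl)
  obtain ⟨s', hss', hs'r⟩ : ∃ s' : ℝ, s < s' ∧ s' * ‖v‖ < r := by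
    have h1 : ContinuousAt (fun s' : ℝ => s' * ‖v‖) s := by fun_prop
    have h2 : ∀ᶠ s' in 𝓝[>] s, s' * ‖v‖ < r :=
      (h1.eventually (gt_mem_nhds hsr)).filter_mono nhdsWithin_le_nhds
    obtain ⟨s', h3, h4⟩ := (h2.and self_mem_nhdsWithin).exists
    exact ⟨s', h4, h3⟩
  set ρ : ℝ := min (min ρ₁ r) (r - s' * ‖v‖) with hρdef
  have hρ0 : 0 < ρ := lt_min (lt_min hρ₁ hr) (by linarith)
  have hρr : ρ ≤ r := (min_le_left _ _).trans (min_le_right _ _)
  have hATO : ∀ z ∈ ball x₀ ρ, ∀ t ∈ T, z + t • v ∈ ball x₀ r ∩ {z | ω z ≠ 0} := by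
    intro z hz t ht
    have hzA : z ∈ A := hρA (ball_subset_ball ((min_le_left _ _).trans (min_le_left _ _)) hz)
    exact hAT (Set.mk_mem_prod hzA ht)
  have hin : ∀ z ∈ ball x₀ ρ, ∀ t ∈ ball (0 : ℂ) s', z + t • v ∈ ball x₀ r := by
    intro z hz t ht
    rw [mem_ball_zero_iff] at ht
    rw [mem_ball, dist_eq_norm] at hz ⊢
    have h1 : ‖t • v‖ ≤ s' * ‖v‖ := by
      rw [norm_smul]; gcongr
    have h2 : ρ ≤ r - s' * ‖v‖ := min_le_right _ _
    calc ‖z + t • v - x₀‖ = ‖(z - x₀) + t • v‖ := by congr 1; abel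
      _ ≤ ‖z - x₀‖ + ‖t • v‖ := norm_add_le _ _
      _ < r := by linarith
  have hT' : IsOpen (T \ {0}) := hT.sdiff isClosed_singleton
  have hsT' : sphere (0 : ℂ) s ⊆ T \ {0} := by
    intro t ht
    refine ⟨hsT ht, ?_⟩
    rw [Set.mem_singleton_iff]
    intro h0
    rw [mem_sphere_zero_iff_norm, h0, norm_zero] at ht
    exact hs.ne ht
  have hFd : DifferentiableOn ℂ (fun z => (2 * Real.pi * Complex.I : ℂ)⁻¹ •
      ∮ t in C(0, s), t⁻¹ • u (z + t • v)) (ball x₀ ρ) := by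
    refine (Vale.Agent.P268.differentiableOn_circleIntegral
      (G := fun q : P × ℂ => q.2⁻¹ • u (q.1 + q.2 • v)) hs.le isOpen_ball
      hT' hsT' ?_).const_smul (2 * Real.pi * Complex.I : ℂ)⁻¹
    apply DifferentiableOn.smul
    · apply DifferentiableOn.inv (by fun_prop)
      intro q hq
      exact hq.2.2
    · rintro ⟨z, t⟩ ⟨hz, ht⟩
      have h1 := hATO z hz t ht.1
      have h2 : DifferentiableAt ℂ u ((fun q : P × ℂ => q.1 + q.2 • v) (z, t)) := hu _ h1.1 h1.2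
      have h3 : DifferentiableAt ℂ (fun q : P × ℂ => q.1 + q.2 • v) (z, t) := by fun_prop
      exact (h2.comp (z, t) h3).differentiableWithinAt
  refine ⟨ρ, hρ0, hρr, _, hFd, ?_⟩
  intro z hz hωz
  have hci : CircleIntegrable (fun t : ℂ => t⁻¹ • u (z + t • v)) 0 s := by
    apply ContinuousOn.circleIntegrable hs.le
    refine ContinuousOn.smul (ContinuousOn.inv₀ (by fun_prop) fun t ht => (hsT' ht).2) ?_
    intro t ht
    have h1 := hATO z hz t (hsT ht)
    have h2 : ContinuousAt u ((fun t : ℂ => z + t • v) t) := (hu _ h1.1 h1.2).continuousAt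
    have h3 : ContinuousAt (fun t : ℂ => z + t • v) t := by fun_prop
    exact (ContinuousAt.comp (g := u) (f := fun t : ℂ => z + t • v) h2 h3).continuousWithinAt
  have hpull : ∀ a : W, inner ℂ a ((2 * Real.pi * Complex.I : ℂ)⁻¹ •
      ∮ t in C(0, s), t⁻¹ • u (z + t • v)) = (2 * Real.pi * Complex.I : ℂ)⁻¹ •
        ∮ t in C(0, s), t⁻¹ • inner ℂ a (u (z + t • v)) := by
    intro a
    rw [inner_smul_right, smul_eq_mul]
    congr 1
    have h4 := (innerSL ℂ a).intervalIntegral_comp_comm hci.out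
    rw [circleIntegral, circleIntegral]
    simp only [innerSL_apply_apply] at h4
    rw [← h4]
    simp only [inner_smul_right, smul_eq_mul]
  -- the components in `D`
  have hd : ∀ d ∈ D, inner ℂ d (u z) = inner ℂ d ((2 * Real.pi * Complex.I : ℂ)⁻¹ •
      ∮ t in C(0, s), t⁻¹ • u (z + t • v)) := by
    intro d hd
    rw [hpull d]
    have hin' : Differentiable ℂ (fun b : W => inner ℂ d b) := (innerSL ℂ d).differentiable
    have hk : DifferentiableOn ℂ (fun t : ℂ => ω (z + t • v)) (ball 0 s') :=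
      hω.comp (by fun_prop) fun t ht => hin z hz t ht
    have hdiff : ∀ t ∈ ball (0 : ℂ) s', ω (z + t • v) ≠ 0 →
        DifferentiableAt ℂ (fun z => inner ℂ d (u z)) (z + t • v) := fun t ht h1 =>
      (hin' _).comp _ (hu _ (hin z hz t ht) h1)
    have hlin : ∀ t : ℂ, HasDerivAt (fun t : ℂ => z + t • v) v t := fun t => by
      have h3 := ((hasDerivAt_id t).smul_const v).const_add z
      simpa using h3
    have h1 := cauchy_of_deriv_bdd (h := fun t : ℂ => inner ℂ d (u (z + t • v)))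
      (k := fun t : ℂ => ω (z + t • v)) hs hss' hk (by simpa using hωz)
      (fun t ht => (hATO z hz t (hsT ht)).2) (fun t ht h2 => ?_) (fun t ht => ?_)
    · rw [h1]
      simp only [zero_smul, add_zero]
      rw [inv_smul_smul₀ (by simp [Real.pi_ne_zero, Complex.I_ne_zero])]
    · exact DifferentiableAt.comp (g := fun z => inner ℂ d (u z)) t (hdiff t ht h2)
        (hlin t).differentiableAt
    · obtain ⟨C, hC⟩ := hD d hd _ (hin z hz t ht)
      refine ⟨C * ‖v‖, ?_⟩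
      have h2 : Tendsto (fun τ : ℂ => z + τ • v) (𝓝[≠] t) (𝓝 (z + t • v)) :=
        ((hlin t).continuousAt.tendsto).mono_left nhdsWithin_le_nhds
      filter_upwards [h2.eventually hC, mem_nhdsWithin_of_mem_nhds (isOpen_ball.mem_nhds ht)]
        with τ h3 h4 h5
      have h6 : HasDerivAt (fun t : ℂ => inner ℂ d (u (z + t • v)))
          (fderiv ℂ (fun z => inner ℂ d (u z)) (z + τ • v) v) τ :=
        HasFDerivAt.comp_hasDerivAt (l := fun z => inner ℂ d (u z)) τ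
          (hdiff τ h4 h5).hasFDerivAt (hlin τ)
      rw [h6.deriv]
      exact (ContinuousLinearMap.le_opNorm _ _).trans
        (mul_le_mul_of_nonneg_right (h3 h5) (norm_nonneg _))
  -- conclusion
  set ψz : W := (2 * Real.pi * Complex.I : ℂ)⁻¹ • ∮ t in C(0, s), t⁻¹ • u (z + t • v) with hψz
  set y : W := u z - ψz with hy
  have hyD : ∀ d ∈ D, inner ℂ y d = 0 := by
    intro d hdD
    have h1 : inner ℂ d y = 0 := by rw [hy, inner_sub_right, hd d hdD, sub_self]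
    rw [← inner_conj_symm, h1, map_zero]
  have h1 : inner ℂ y (u z) = 0 := hcl y hyD z (ball_subset_ball hρr hz) hωz
  have h2 : inner ℂ y ψz = 0 := by
    rw [hψz, hpull y]
    have h3 : (∮ t in C(0, s), t⁻¹ • inner ℂ y (u (z + t • v))) = ∮ t in C(0, s), (0 : ℂ) := by
      refine circleIntegral.integral_congr hs.le fun t ht => ?_
      have h4 := hATO z hz t (hsT ht)
      show t⁻¹ • inner ℂ y (u (z + t • v)) = 0
      rw [hcl y hyD _ h4.1 h4.2, smul_zero]
    rw [h3]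
    simp [circleIntegral]
  have h3 : inner ℂ y y = 0 := by
    nth_rewrite 2 [hy]
    rw [inner_sub_right, h1, h2, sub_zero]
  exact sub_eq_zero.1 (inner_self_eq_zero.1 h3)

end Vale.Agent.P284.H221
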