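import Vale.Agent.P284.H221.C6
import Vale.Agent.P284.H221.C7
import Vale.Agent.P284.H619.NulS

/-!
# P284 (helper221), hole H3, part K1: vectors fixed by a subgroup of finite index of `K` are orthogonal to
the relative form `Θ` along a regular connected fibre.
-/

open scoped Manifold ContDiff Topology InnerProductSpace ComplexConjugate
open Filter Set Metric

noncomputable section

namespace Vale.Agent.P284.H221

open Vale.Agent.P272.K Vale.Agent.P284.H894.G Vale.Agent.P284.H894.V Vale.Agent.P284.H894.W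
  Vale.Agent.P284.H213.Grp Vale.Agent.P284.H619

/-- a function which is holomorphic and antiholomorphic has derivative zero -/
lemma fderiv_zero_of_conj {S : Type*} [NormedAddCommGroup S] [NormedSpace ℂ S] {G H : S → ℂ} {x : S}
    {a : ℂ} (hG : DifferentiableAt ℂ G x) (hH : DifferentiableAt ℂ H x)
    (h : ∀ᶠ u in 𝓝 x, G u + conj (H u) = a) : fderiv ℂ G x = 0 := by
  have h1 : HasFDerivAt (𝕜 := ℝ) G ((fderiv ℂ G x).restrictScalars ℝ) x :=
    hG.hasFDerivAt.restrictScalars ℝ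
  have h2 : HasFDerivAt (𝕜 := ℝ) H ((fderiv ℂ H x).restrictScalars ℝ) x :=
    hH.hasFDerivAt.restrictScalars ℝ
  have h3 : HasFDerivAt (𝕜 := ℝ) (fun u => G u + conj (H u))
      ((fderiv ℂ G x).restrictScalars ℝ +
        (Complex.conjCLE : ℂ →L[ℝ] ℂ).comp ((fderiv ℂ H x).restrictScalars ℝ)) x :=
    h1.add ((Complex.conjCLE : ℂ →L[ℝ] ℂ).hasFDerivAt.comp x h2)
  have h4 : HasFDerivAt (𝕜 := ℝ) (fun u => G u + conj (H u)) (0 : S →L[ℝ] ℂ) x := by
    refine (hasFDerivAt_const (𝕜 := ℝ) a x).congr_of_eventuallyEq ?_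
    exact h
  have h5 := h3.unique h4
  have key : ∀ v : S, fderiv ℂ G x v + conj (fderiv ℂ H x v) = 0 := fun v => by
    have := congrArg (fun L : S →L[ℝ] ℂ => L v) h5
    exact this
  ext v
  have h6 := key v
  have h7 := key (Complex.I • v)
  rw [map_smul, map_smul, smul_eq_mul, smul_eq_mul, map_mul, Complex.conj_I] at h7
  have h8 : fderiv ℂ G x v = conj (fderiv ℂ H x v) := by
    have h9 : Complex.I * (fderiv ℂ G x v - conj (fderiv ℂ H x v)) = 0 := by
      rw [mul_sub]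
      linear_combination h7
    exact sub_eq_zero.1 ((mul_eq_zero.1 h9).resolve_left Complex.I_ne_zero)
  rw [← h8] at h6
  have h10 : (2 : ℂ) * fderiv ℂ G x v = 0 := by linear_combination h6
  simpa using h10

section
variable {n q : ℕ} {X : Type} [TopologicalSpace X] [T2Space X] [CompactSpace X]
    [ChartedSpace (Cm n) X] {E Γ : Type} [TopologicalSpace E]
    [Group Γ] [MulAction Γ E] {p : E → X} {F : E → Cm q} {c : Γ → Cm q} {K K' : Subgroup Γ}
    {W : Type} [NormedAddCommGroup W] [InnerProductSpace ℂ W]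
    {π : Γ →* (W ≃ₗᵢ[ℂ] W)} {Θ : E → Chart n X → (Cm n →L[ℂ] W)} {u : E → W}

omit [T2Space X] [CompactSpace X] in
lemma holA_of_holE (hF : HolE n p F) : HolA n p F := fun y e he => by
  obtain ⟨f, h1, h2⟩ := hF y e he
  exact ⟨f, h2, h1⟩

/-- **K1**: a vector fixed by a subgroup `K'` of finite index of `K` is orthogonal to `Θ`. -/
theorem vanish_of_fixed (hp : IsGalois Γ p) (hF : HolE n p F)
    (hFe : ∀ (g : Γ) (y : E), F (g • y) = F y + c g) (hK : NPkg Γ q c K)
    {t : Cm q} (hconn : IsPreconnected (F ⁻¹' {t})) (hreg : ∀ y, F y = t → Reg (n := n) p F y)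
    (hV : VPot p F t W Θ u) (hE : VEqui p F t K π Θ u) (hle : K' ≤ K)
    (hfi : (K'.subgroupOf K).FiniteIndex) {w : W} (hw : ∀ k ∈ K', π k w = w) :
    ∀ y e, F y = t → At e (p y) → ∀ ξ ∈ VS p F y e, ⟪w, Θ y e ξ⟫_ℂ = 0 := by
  intro y₀ e he₀ he ξ hξ
  have hHol : HolA n p F := holA_of_holE hF
  have hkc : ∀ k ∈ K', c k = 0 := fun k hk => hK.sub k (hle hk)
  have hstay : ∀ k ∈ K', ∀ y, F y = t → F (k • y) = t := fun k hk y hy => by
    rw [hFe, hkc k hk, add_zero, hy]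
  -- the periods vanish
  have hper : ∀ k ∈ K', ∀ y, F y = t → ⟪w, u (k • y)⟫_ℂ = ⟪w, u y⟫_ℂ := by
    have h1 : ∀ k ∈ K', ∃ β : ℂ, ∀ y, F y = t → ⟪w, u (k • y)⟫_ℂ = ⟪w, u y⟫_ℂ + β := by
      intro k hk
      obtain ⟨b, hb⟩ := hE.pot k (hle hk)
      refine ⟨⟪w, b⟫_ℂ, fun y hy => ?_⟩
      rw [hb y hy, inner_add_right]
      congr 1
      calc ⟪w, π k (u y)⟫_ℂ = ⟪π k w, π k (u y)⟫_ℂ := by rw [hw k hk]
        _ = ⟪w, u y⟫_ℂ := (π k).inner_map_map _ _
    choose! β hβ using h1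
    have h2 : ∀ k ∈ K', β k = 0 := by
      refine hom_zero_sub hK.fg hK.nvi hle hfi β ?_
      intro k hk k' hk'
      have h3 := hβ (k * k') (K'.mul_mem hk hk') y₀ he₀
      rw [mul_smul, hβ k hk _ (hstay k' hk' _ he₀), hβ k' hk' _ he₀] at h3
      linear_combination -h3
    intro k hk y hy
    rw [hβ k hk y hy, h2 k hk, add_zero]
  -- real and imaginary part are constant
  have hfi' : ∃ S : Set Γ, S.Finite ∧ ∀ g, c g = 0 → ∃ f ∈ S, f⁻¹ * g ∈ K' := fi_trans hK.fi hfi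
  have hloc : ∀ y, F y = t → ∀ e, At e (p y) → ∃ g h : Cm n → ℂ, AnalyticAt ℂ g (e (p y)) ∧
      AnalyticAt ℂ h (e (p y)) ∧ ∀ᶠ y' in 𝓝 y, F y' = t →
        ⟪w, u y'⟫_ℂ = g (e (p y')) + conj (h (e (p y'))) := by
    intro y hy e he
    obtain ⟨g, h, h1, h2, h3⟩ := hV.pot y e hy he w
    exact ⟨g, h, h1, h2, h3.mono fun y' h4 h5 => (h4 h5).1⟩
  have hcont : ContinuousOn (fun y => ⟪w, u y⟫_ℂ) (F ⁻¹' {t}) := by
    intro y hy
    have he : At (chartAt (Cm n) (p y) : Chart n X) (p y) :=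
      ⟨chart_mem_atlas _ _, mem_chart_source _ _⟩
    obtain ⟨g, h, h1, h2, h3⟩ := hloc y hy _ he
    have h4 : Tendsto (fun y' => (chartAt (Cm n) (p y) : Chart n X) (p y')) (𝓝 y)
        (𝓝 ((chartAt (Cm n) (p y) : Chart n X) (p y))) := (map_ep' hp.cov he).le
    have h5 : ContinuousAt (fun y' => g ((chartAt (Cm n) (p y) : Chart n X) (p y')) +
        conj (h ((chartAt (Cm n) (p y) : Chart n X) (p y')))) y :=
      (h1.continuousAt.tendsto.comp h4).add
        ((Complex.continuous_conj.tendsto _).comp (h2.continuousAt.tendsto.comp h4))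
    refine h5.continuousWithinAt.congr_of_eventuallyEq ?_ (h3.self_of_nhds hy)
    filter_upwards [mem_nhdsWithin_of_mem_nhds h3, self_mem_nhdsWithin] with y' h6 h7 using h6 h7
  have hre : ∀ y y', F y = t → F y' = t → (⟪w, u y⟫_ℂ).re = (⟪w, u y'⟫_ℂ).re := by
    refine const_on_fib_re' hp hHol hFe hK.lat.disc K' hkc hfi' hconn hreg
      (Complex.continuous_re.comp_continuousOn hcont) ?_ ?_
    · intro y hy
      have he : At (chartAt (Cm n) (p y) : Chart n X) (p y) :=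
        ⟨chart_mem_atlas _ _, mem_chart_source _ _⟩
      obtain ⟨g, h, h1, h2, h3⟩ := hloc y hy _ he
      refine ⟨_, he, fun z => g z + h z, ?_, ?_⟩
      · filter_upwards [h1.eventually_analyticAt, h2.eventually_analyticAt] with z h4 h5
        exact h4.differentiableAt.add h5.differentiableAt
      · filter_upwards [h3] with y' h4 h5
        rw [h4 (by rw [h5, hy]), Complex.add_re, Complex.add_re, Complex.conj_re]
    · intro k hk y hy
      rw [hper k hk y hy]
  have him : ∀ y y', F y = t → F y' = t → (⟪w, u y⟫_ℂ).im = (⟪w, u y'⟫_ℂ).im := by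
    refine const_on_fib_re' hp hHol hFe hK.lat.disc K' hkc hfi' hconn hreg
      (Complex.continuous_im.comp_continuousOn hcont) ?_ ?_
    · intro y hy
      have he : At (chartAt (Cm n) (p y) : Chart n X) (p y) :=
        ⟨chart_mem_atlas _ _, mem_chart_source _ _⟩
      obtain ⟨g, h, h1, h2, h3⟩ := hloc y hy _ he
      refine ⟨_, he, fun z => -Complex.I * g z + Complex.I * h z, ?_, ?_⟩
      · filter_upwards [h1.eventually_analyticAt, h2.eventually_analyticAt] with z h4 h5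
        exact (h4.differentiableAt.const_mul _).add (h5.differentiableAt.const_mul _)
      · filter_upwards [h3] with y' h4 h5
        rw [h4 (by rw [h5, hy])]
        simp
    · intro k hk y hy
      rw [hper k hk y hy]
  have hconst : ∀ y, F y = t → ⟪w, u y⟫_ℂ = ⟪w, u y₀⟫_ℂ := fun y hy =>
    Complex.ext (hre y y₀ hy he₀) (him y y₀ hy he₀)
  -- the derivative
  obtain ⟨g, h, h1, h2, h3⟩ := hV.pot y₀ e he₀ he w
  rw [← (h3.self_of_nhds he₀).2 ξ hξ]
  obtain ⟨f, ψ, φ, f1, f2, f3, f4, f5, f6, f7, f8⟩ := exists_fib hp.cov hF he (hreg y₀ he₀)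
  have h4 : ∀ᶠ z in 𝓝 (e (p y₀)), f z = t → g z + conj (h z) = ⟪w, u y₀⟫_ℂ := by
    rw [← ev_iff' hp.cov he]
    filter_upwards [h3, f1] with y' h5 h6 h7
    have h8 : F y' = t := by rw [h6, h7]
    rw [← (h5 h8).1, hconst y' h8]
  have hψc : Tendsto ψ (𝓝 0) (𝓝 (e (p y₀))) := by
    have := f3.continuousAt.tendsto
    rwa [f5] at this
  have h5 : ∀ᶠ x in 𝓝 (0 : Cm n), g (ψ x) + conj (h (ψ x)) = ⟪w, u y₀⟫_ℂ := by
    filter_upwards [hψc.eventually h4, f7] with x h6 h7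
    exact h6 (by rw [h7, he₀])
  have hg : DifferentiableAt ℂ g (ψ 0) := by rw [f5]; exact h1.differentiableAt
  have hh : DifferentiableAt ℂ h (ψ 0) := by rw [f5]; exact h2.differentiableAt
  have h6 := fderiv_zero_of_conj (G := fun x => g (ψ x)) (H := fun x => h (ψ x))
    (hg.comp 0 f3.differentiableAt) (hh.comp 0 f3.differentiableAt) h5
  have h7 : fderiv ℂ (fun x => g (ψ x)) 0 = (fderiv ℂ g (ψ 0)).comp (fderiv ℂ ψ 0) :=
    fderiv_comp 0 hg f3.differentiableAt
  obtain ⟨-, h8⟩ := f8.self_of_nhds rfl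
  have h9 := h8 ξ hξ
  rw [f6] at h9
  have h10 : fderiv ℂ g (e (p y₀)) (fderiv ℂ ψ 0 (fderiv ℂ φ (e (p y₀)) ξ)) = 0 := by
    have h11 : (fderiv ℂ g (ψ 0)).comp (fderiv ℂ ψ 0) = 0 := by rw [← h7, h6]
    rw [f5] at h11
    have := congrArg (fun L : Cm n →L[ℂ] ℂ => L (fderiv ℂ φ (e (p y₀)) ξ)) h11
    exact this
  rw [h9] at h10
  exact h10

/-- **K1'**: if a subgroup of finite index of `K` acts trivially on the values of `Θ` along the fibre,
then `Θ = 0` along the fibre. -/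
theorem zero_of_trivial (hp : IsGalois Γ p) (hF : HolE n p F)
    (hFe : ∀ (g : Γ) (y : E), F (g • y) = F y + c g) (hK : NPkg Γ q c K)
    {t : Cm q} (hconn : IsPreconnected (F ⁻¹' {t})) (hreg : ∀ y, F y = t → Reg (n := n) p F y)
    (hV : VPot p F t W Θ u) (hE : VEqui p F t K π Θ u) (hle : K' ≤ K)
    (hfi : (K'.subgroupOf K).FiniteIndex)
    (hw : ∀ k ∈ K', ∀ y e, F y = t → At e (p y) → ∀ ξ ∈ VS p F y e, π k (Θ y e ξ) = Θ y e ξ) :
    ∀ y e, F y = t → At e (p y) → ∀ ξ ∈ VS p F y e, Θ y e ξ = 0 := by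
  intro y e hy he ξ hξ
  have := vanish_of_fixed hp hF hFe hK hconn hreg hV hE hle hfi (w := Θ y e ξ)
    (fun k hk => hw k hk y e hy he ξ hξ) y e hy he ξ hξ
  exact inner_self_eq_zero.1 this

end

end Vale.Agent.P284.H221
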